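/-
R335/OB/Rad: radial calculus (regularised distance, exponential barriers)
Skeleton by helper11 (block OB of row 335); keep the statements unchanged, add any helper lemmas.
-/
import Crest.Agent.R335.T.Cmp

set_option autoImplicit false
set_option linter.unusedSectionVars false
set_option linter.unusedVariables false
set_option linter.unusedSimpArgs false

noncomputable section

namespace Crest.Agent.R335

open MeasureTheory Set Filter Topology Metric
open scoped ENNReal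

/-- The regularised distance from `p`. -/
def rh (ε : ℝ) (p x : X) : ℝ := √(‖x - p‖ ^ 2 + ε ^ 2)

/-- Its gradient. -/
def wf (ε : ℝ) (p : X) (i : Fin 3) (x : X) : ℝ := (x - p) i / rh ε p x

/-- The exponential barrier. -/
def bar (μ : ℝ) (p x : X) : ℝ := Real.exp (-μ * ‖x - p‖)

variable {ε μ : ℝ} {p q x : X}

theorem rh_pos (hε : 0 < ε) (p x : X) : 0 < rh ε p x := by
  exact Real.sqrt_pos.2 (by positivity)

theorem le_rh (ε : ℝ) (p x : X) : ‖x - p‖ ≤ rh ε p x := by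
  exact Real.le_sqrt_of_sq_le (le_add_of_nonneg_right (sq_nonneg _))

theorem rh_le (hε : 0 < ε) (p x : X) : rh ε p x ≤ ‖x - p‖ + ε := by
  exact Real.sqrt_le_iff.2 ⟨by positivity, by nlinarith [norm_nonneg (x - p)]⟩

theorem rh_sq (ε : ℝ) (p x : X) : rh ε p x ^ 2 = ‖x - p‖ ^ 2 + ε ^ 2 := Real.sq_sqrt (by positivity)

theorem rh_zero (p x : X) : rh 0 p x = ‖x - p‖ := by simp [rh]

theorem rad_contDiffAt (h : 0 < rh ε p x) : ContDiffAt ℝ 2 (rh ε p) x :=
  (((contDiffAt_id.sub contDiffAt_const).norm_sq ℝ).add contDiffAt_const).sqrt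
    (Real.sqrt_pos.1 h).ne'

theorem rad_hasFDerivAt (h : 0 < rh ε p x) :
    HasFDerivAt (rh ε p) ((rh ε p x)⁻¹ • innerSL ℝ (x - p)) x := by
  have := (((hasFDerivAt_id x).sub_const p).norm_sq.add_const (ε ^ 2)).sqrt (Real.sqrt_pos.1 h).ne'
  refine this.congr_fderiv ?_
  ext v
  have h' := h.ne'
  simp only [rh] at h'
  simp [rh]
  field_simp

theorem rad_fderiv (h : 0 < rh ε p x) (i : Fin 3) : fderiv ℝ (rh ε p) x (eX i) = wf ε p i x := by
  rw [(rad_hasFDerivAt h).fderiv]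
  simp [eX, wf, EuclideanSpace.inner_single_right, div_eq_inv_mul]

theorem rad_coord (p : X) (i : Fin 3) : ContDiff ℝ 2 fun y : X => (y - p) i :=
  (EuclideanSpace.proj (𝕜 := ℝ) i).contDiff.comp (contDiff_id.sub contDiff_const)

theorem rad_wf (h : 0 < rh ε p x) (i : Fin 3) : ContDiffAt ℝ 2 (wf ε p i) x :=
  (rad_coord p i).contDiffAt.div (rad_contDiffAt h) h.ne'

theorem rad_fderiv_wf (h : 0 < rh ε p x) (i : Fin 3) :
    fderiv ℝ (wf ε p i) x (eX i) = (1 - wf ε p i x ^ 2) / rh ε p x := by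
  have h1 : HasFDerivAt (fun y : X => (y - p) i) (EuclideanSpace.proj (𝕜 := ℝ) i) x :=
    (EuclideanSpace.proj (𝕜 := ℝ) i).hasFDerivAt.comp x ((hasFDerivAt_id x).sub_const p)
  have h2 := h1.mul ((hasDerivAt_inv h.ne').comp_hasFDerivAt x (rad_hasFDerivAt h))
  have h3 : wf ε p i = (fun y : X => (y - p) i) * (fun y => y⁻¹) ∘ rh ε p := by
    funext y; simp [wf, div_eq_mul_inv]
  have h' := h.ne'
  rw [h3, h2.fderiv]
  simp [eX, EuclideanSpace.inner_single_right]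
  field_simp
  ring

theorem rad_sum_sq (ε : ℝ) (p x : X) : ∑ i, wf ε p i x ^ 2 = ‖x - p‖ ^ 2 / rh ε p x ^ 2 := by
  simp only [wf, div_pow, ← Finset.sum_div, EuclideanSpace.real_norm_sq_eq]

theorem rad_div (h : 0 < rh ε p x) :
    ∑ i, fderiv ℝ (wf ε p i) x (eX i) = 2 / rh ε p x + ε ^ 2 / rh ε p x ^ 3 := by
  simp only [rad_fderiv_wf h, ← Finset.sum_div, Finset.sum_sub_distrib, rad_sum_sq]
  have h1 := rh_sq ε p x
  have h' := h.ne'
  simp
  field_simp
  linarith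

theorem contDiff_rh (hε : 0 < ε) (p : X) : ContDiff ℝ 2 (rh ε p) := by
  exact contDiff_iff_contDiffAt.2 fun x => rad_contDiffAt (rh_pos hε p x)

theorem fderiv_rh (hε : 0 < ε) (p x : X) (i : Fin 3) :
    fderiv ℝ (rh ε p) x (eX i) = wf ε p i x := by
  exact rad_fderiv (rh_pos hε p x) i

theorem contDiff_wf (hε : 0 < ε) (p : X) (i : Fin 3) : ContDiff ℝ 1 (wf ε p i) := by
  exact contDiff_iff_contDiffAt.2 fun x => (rad_wf (rh_pos hε p x) i).of_le (by norm_num)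

theorem sum_wf_sq_le (hε : 0 < ε) (p x : X) : ∑ i, wf ε p i x ^ 2 ≤ 1 := by
  rw [rad_sum_sq, div_le_one (pow_pos (rh_pos hε p x) 2), rh_sq]
  exact le_add_of_nonneg_right (sq_nonneg _)

theorem le_sum_wf_sq (hε : 0 < ε) (hε1 : ε ≤ 1) (hx : x ≠ p) :
    1 - ε * (1 / ‖x - p‖) ^ 2 ≤ ∑ i, wf ε p i x ^ 2 := by
  have h0 : 0 < ‖x - p‖ := norm_pos_iff.2 (sub_ne_zero.2 hx)
  rw [rad_sum_sq, rh_sq, le_div_iff₀ (by positivity)]
  have h1 : ε * (1 / ‖x - p‖) ^ 2 * (‖x - p‖ ^ 2 + ε ^ 2) = ε + ε ^ 3 * (1 / ‖x - p‖) ^ 2 := by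
    field_simp
  have h2 : 0 ≤ ε ^ 3 * (1 / ‖x - p‖) ^ 2 := by positivity
  nlinarith

/-- the divergence is `2 / ρ + ε² / ρ³` -/
theorem le_div_wf (hε : 0 < ε) (hx : x ≠ p) :
    2 * (1 / ‖x - p‖) - 2 * ε * (1 / ‖x - p‖) ^ 2 ≤ ∑ i, fderiv ℝ (wf ε p i) x (eX i) := by
  have h0 : 0 < ‖x - p‖ := norm_pos_iff.2 (sub_ne_zero.2 hx)
  have h := rh_pos hε p x
  rw [rad_div h]
  have h1 : 2 / (‖x - p‖ + ε) ≤ 2 / rh ε p x := by gcongr; exact rh_le hε p x
  have h2 : 0 ≤ ε ^ 2 / rh ε p x ^ 3 := by positivity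
  have h3 : 2 * (1 / ‖x - p‖) - 2 * ε * (1 / ‖x - p‖) ^ 2 ≤ 2 / (‖x - p‖ + ε) := by
    rw [le_div_iff₀ (by positivity)]
    have : (2 * (1 / ‖x - p‖) - 2 * ε * (1 / ‖x - p‖) ^ 2) * (‖x - p‖ + ε)
        = 2 - 2 * (ε * (1 / ‖x - p‖)) ^ 2 := by field_simp; ring
    nlinarith [sq_nonneg (ε * (1 / ‖x - p‖))]
  linarith

theorem div_wf_le (hε : 0 < ε) (hx : x ≠ p) :
    ∑ i, fderiv ℝ (wf ε p i) x (eX i) ≤ 2 * (1 / ‖x - p‖) + ε * (1 / ‖x - p‖) ^ 2 := by
  have h0 : 0 < ‖x - p‖ := norm_pos_iff.2 (sub_ne_zero.2 hx)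
  have h := rh_pos hε p x
  have h4 := le_rh ε p x
  have h5 : ε ≤ rh ε p x := Real.le_sqrt_of_sq_le (le_add_of_nonneg_left (sq_nonneg _))
  rw [rad_div h]
  have h1 : 2 / rh ε p x ≤ 2 / ‖x - p‖ := by gcongr
  have h2 : ε ^ 2 / rh ε p x ^ 3 ≤ ε ^ 2 / (‖x - p‖ ^ 2 * ε) := by
    rw [pow_succ (rh ε p x) 2]; gcongr
  have h3 : ε ^ 2 / (‖x - p‖ ^ 2 * ε) = ε * (1 / ‖x - p‖) ^ 2 := by field_simp
  rw [mul_one_div]
  linarith

/-- the divergence of the cut-off field -/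
theorem div_cut (hε : 0 < ε) {χ : X → ℝ} (hχ : ContDiff ℝ 1 χ) (p x : X) :
    |∑ i, fderiv ℝ (fun y => χ y * wf ε p i y) x (eX i) - χ x * ∑ i, fderiv ℝ (wf ε p i) x (eX i)|
      ≤ ‖fderiv ℝ χ x‖ := by
  have h1 : ∀ i, fderiv ℝ (fun y => χ y * wf ε p i y) x (eX i) =
      χ x * fderiv ℝ (wf ε p i) x (eX i) + fderiv ℝ χ x (eX i) * wf ε p i x := fun i => by
    rw [fderiv_fun_mul (hχ.differentiable one_ne_zero x)
      ((contDiff_wf hε p i).differentiable one_ne_zero x)]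
    simp [mul_comm]
  simp only [h1, Finset.sum_add_distrib, ← Finset.mul_sum, add_sub_cancel_left]
  refine abs_le_of_sq_le_sq' ?_ (norm_nonneg _) |> abs_le.2
  refine (Finset.sum_mul_sq_le_sq_mul_sq _ _ _).trans ?_
  rw [sum_fderiv_sq]
  exact mul_le_of_le_one_right (sq_nonneg _) (sum_wf_sq_le hε p x)

theorem tst_cut (hε : 0 < ε) {χ : X → ℝ} (hχ : ContDiff ℝ 1 χ) (hs : HasCompactSupport χ) (p : X)
    (i : Fin 3) : Tst fun y => χ y * wf ε p i y :=
  ⟨hχ.mul (contDiff_wf hε p i), hs.mul_right⟩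

theorem ip_self_nonneg (f : X → ℝ) : 0 ≤ ip f f := integral_nonneg fun _ => mul_self_nonneg _

theorem ip_self_eq (f : X → ℝ) : ip f f = ∫ x, f x ^ 2 := by simp only [ip, sq]

theorem integrable_inv_mul {f g : X → ℝ} (hf : H1 eX f) (hg : MemLp g 2 volume) (p : X) :
    Integrable fun x => 1 / ‖x - p‖ * f x * g x := (hf.hardy p).1.integrable_mul hg

theorem int_V {f g : X → ℝ} (hf : H1 eX f) (hg : MemLp g 2 volume) (D : ℝ) :
    ∫ x, V D x * f x * g x =
      -(∫ x, 1 / tp D x * f x * g x) - ∫ x, 1 / tm D x * f x * g x := by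
  have h1 : Integrable fun x => -(1 / tp D x * f x * g x) := (integrable_inv_mul hf hg (nuc D)).neg
  have h2 : Integrable fun x => 1 / tm D x * f x * g x := by
    simpa only [tm, sub_neg_eq_add] using integrable_inv_mul hf hg (-nuc D)
  rw [← integral_neg, ← integral_sub h1 h2]
  refine integral_congr_ae (.of_forall fun x => ?_)
  simp only [V]
  ring

theorem bar_pos (μ : ℝ) (p x : X) : 0 < bar μ p x := Real.exp_pos _

theorem rad_bar (μ : ℝ) (p : X) : bar μ p = fun y => Real.exp (-μ * rh 0 p y) := by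
  funext y; rw [bar, rh_zero]

theorem rad_pos0 (hx : x ≠ p) : 0 < rh 0 p x := by
  rw [rh_zero]; exact norm_pos_iff.2 (sub_ne_zero.2 hx)

theorem rad_barAt (μ : ℝ) (hx : x ≠ p) : ContDiffAt ℝ 2 (bar μ p) x := by
  rw [rad_bar]
  exact (contDiffAt_const.mul (rad_contDiffAt (rad_pos0 hx))).exp

theorem rad_pd_bar (μ : ℝ) (hx : x ≠ p) (c : Fin 3) :
    R338.pd c (bar μ p) x = -μ * (wf 0 p c x * bar μ p x) := by
  have h := ((rad_hasFDerivAt (rad_pos0 hx)).const_mul (-μ)).exp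
  have h1 := rad_fderiv (rad_pos0 hx) c
  rw [(rad_hasFDerivAt (rad_pos0 hx)).fderiv] at h1
  rw [R338.pd, rad_bar, h.fderiv, ← h1]
  simp only [smul_apply, smul_eq_mul, eX]
  ring

theorem contDiffOn_bar (μ : ℝ) (p : X) : ContDiffOn ℝ 2 (bar μ p) {x | x ≠ p} := by
  exact fun x hx => (rad_barAt μ hx).contDiffWithinAt

theorem lap_bar2 (μ α β : ℝ) (hp : x ≠ p) (hq : x ≠ q) :
    R338.lap (fun y => α * bar μ p y + β * bar μ q y) x =
      α * ((μ ^ 2 - 2 * μ / ‖x - p‖) * bar μ p x) + β * ((μ ^ 2 - 2 * μ / ‖x - q‖) * bar μ q x) := by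
  have d1 : ∀ {p y : X}, y ≠ p → DifferentiableAt ℝ (bar μ p) y := fun h =>
    (rad_barAt μ h).differentiableAt two_ne_zero
  have d2 : ∀ {p : X} (c : Fin 3), x ≠ p → DifferentiableAt ℝ (wf 0 p c) x := fun c h =>
    (rad_wf (rad_pos0 h) c).differentiableAt two_ne_zero
  have h1 : ∀ c, R338.pd c (fun y => α * bar μ p y + β * bar μ q y) =ᶠ[𝓝 x] fun y =>
      α * -μ * (wf 0 p c y * bar μ p y) + β * -μ * (wf 0 q c y * bar μ q y) := fun c => by
    filter_upwards [isOpen_ne.mem_nhds hp, isOpen_ne.mem_nhds hq] with y h h'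
    rw [R338.pd_add c ((d1 h).const_mul α) ((d1 h').const_mul β), R338.pd_const_mul c α (d1 h),
      R338.pd_const_mul c β (d1 h'), rad_pd_bar μ h, rad_pd_bar μ h']
    ring
  have h2 : ∀ {p : X}, x ≠ p → ∑ c, R338.pd c (fun y => wf 0 p c y * bar μ p y) x =
      (2 / ‖x - p‖ - μ) * bar μ p x := fun {p} h => by
    have h0 : 0 < ‖x - p‖ := norm_pos_iff.2 (sub_ne_zero.2 h)
    have h3 := rad_div (rad_pos0 h)
    have h4 := rad_sum_sq 0 p x
    rw [rh_zero] at h3 h4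
    rw [div_self (by positivity)] at h4
    simp only [R338.pd_mul _ (d2 _ h) (d1 h), rad_pd_bar μ h]
    simp only [R338.pd, eX, Fin.sum_univ_three] at h3 h4 ⊢
    linear_combination bar μ p x * h3 - μ * bar μ p x * h4
  have h3 : ∀ c, R338.pd c (R338.pd c fun y => α * bar μ p y + β * bar μ q y) x =
      α * -μ * R338.pd c (fun y => wf 0 p c y * bar μ p y) x +
        β * -μ * R338.pd c (fun y => wf 0 q c y * bar μ q y) x := fun c => by
    rw [← R338.pd_const_mul c _ ((d2 c hp).fun_mul (d1 hp)),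
      ← R338.pd_const_mul c _ ((d2 c hq).fun_mul (d1 hq)),
      ← R338.pd_add c (((d2 c hp).fun_mul (d1 hp)).const_mul _) (((d2 c hq).fun_mul (d1 hq)).const_mul _)]
    exact congrArg (fun L : X →L[ℝ] ℝ => L (EuclideanSpace.single c 1)) (h1 c).fderiv_eq
  simp only [R338.lap, h3, Finset.sum_add_distrib, ← Finset.mul_sum, h2 hp, h2 hq]
  ring

theorem lh_bar (μ : ℝ) (p : X) : LH eX (bar μ p) := by
  exact ((lh_norm p).1.const_mul (-μ)).exp.1

theorem continuous_bar (μ : ℝ) (p : X) : Continuous (bar μ p) := by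
  unfold bar
  fun_prop

theorem integrable_bar (hμ : 0 < μ) (p : X) : Integrable (bar μ p) := by
  exact (integrable_ex hμ p 0).congr (.of_forall fun x => by simp [bar])

theorem memLp_bar (hμ : 0 < μ) (p : X) : MemLp (bar μ p) 2 volume := by
  refine (memLp_two_iff_integrable_sq (continuous_bar μ p).aestronglyMeasurable).2 ?_
  refine (integrable_bar (μ := 2 * μ) (by positivity) p).congr (.of_forall fun x => ?_)
  simp only [bar]
  rw [← Real.exp_nat_mul]
  congr 1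
  push_cast
  ring

/-- translation invariance -/
theorem int_bar (hμ : 0 < μ) : ∃ K : ℝ, 0 < K ∧ ∀ p : X, Integrable (bar μ p) ∧ ∫ x, bar μ p x ≤ K ∧
    (Integrable fun x => bar μ p x * (1 / ‖x - p‖) ^ 2) ∧
      ∫ x, bar μ p x * (1 / ‖x - p‖) ^ 2 ≤ K := by
  obtain ⟨C, hC, h⟩ := int_exp_inv_sq hμ
  obtain ⟨h1, h2⟩ := h 0
  simp only [zero_sub, norm_neg] at h1 h2
  have h0 : 0 ≤ ∫ x, bar μ 0 x := integral_nonneg fun x => (bar_pos _ _ _).le
  refine ⟨C + ∫ x, bar μ 0 x, by linarith, fun p => ⟨integrable_bar hμ p, ?_, h1.comp_sub_right p, ?_⟩⟩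
  · have := integral_sub_right_eq_self (μ := volume) (bar μ 0) p
    simp only [bar, sub_zero] at this ⊢
    linarith
  · have := integral_sub_right_eq_self (μ := volume)
      (fun y : X => Real.exp (-μ * ‖y‖) * (1 / ‖y‖) ^ 2) p
    simp only [bar] at h0 ⊢
    linarith

theorem ae_ne_pt (p : X) : ∀ᵐ x : X, x ≠ p := by
  exact compl_mem_ae_iff.2 (measure_singleton p)

theorem tm_eq (D : ℝ) (x : X) : tm D x = ‖x - -nuc D‖ := by rw [tm, sub_neg_eq_add]

theorem rad_coord_le (y : X) : |y 2| ≤ ‖y‖ := by simpa using PiLp.norm_apply_le y 2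

theorem tp_add_tm (D : ℝ) (x : X) : 2 * D ≤ tp D x + tm D x := by
  have h1 := (le_abs_self _).trans (rad_coord_le (x + nuc D))
  have h2 := (neg_le_abs _).trans (rad_coord_le (x - nuc D))
  simp [nuc] at h1 h2
  simp only [tp, tm, nuc]
  linarith

theorem tp_sq_sub (D : ℝ) (x : X) : tm D x ^ 2 - tp D x ^ 2 = 4 * D * x 2 := by
  simp [tp, tm, nuc, EuclideanSpace.real_norm_sq_eq, Fin.sum_univ_three]
  ring

theorem tp_le_tm {D : ℝ} (hD : 0 ≤ D) (hx : 0 < x 2) : tp D x ≤ tm D x := by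
  refine (pow_le_pow_iff_left₀ (norm_nonneg _) (norm_nonneg _) two_ne_zero).1 ?_
  have := tp_sq_sub D x
  have := mul_nonneg hD hx.le
  simp only [tp, tm] at *
  linarith

theorem sub_le_tp (D : ℝ) (x : X) : D - x 2 ≤ tp D x := by
  have h2 := (neg_le_abs _).trans (rad_coord_le (x - nuc D))
  simpa [nuc, tp] using h2

theorem add_le_tm (D : ℝ) (x : X) : D + x 2 ≤ tm D x := by
  have h1 := (le_abs_self _).trans (rad_coord_le (x + nuc D))
  simpa [nuc, tm, add_comm] using h1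

/-- The ground state transform for a vector field (`H1.ibp` for `f` and `w i * f`). -/
theorem gst {f : X → ℝ} (hf : H1 eX f) {w : Fin 3 → X → ℝ} (hw : ∀ i, Tst (w i)) :
    (Integrable fun x => ∑ i, (wd (eX i) f x + w i x * f x) ^ 2) ∧
    (Integrable fun x => (∑ i, w i x ^ 2 - ∑ i, fderiv ℝ (w i) x (eX i)) * f x ^ 2) ∧
    ∫ x, ∑ i, (wd (eX i) f x + w i x * f x) ^ 2 =
      dir eX f f + ∫ x, (∑ i, w i x ^ 2 - ∑ i, fderiv ℝ (w i) x (eX i)) * f x ^ 2 := by
  have hb : ∀ i, ∃ M, (∀ x, |w i x| ≤ M) ∧ ∀ x, ‖fderiv ℝ (w i) x‖ ≤ M := fun i => by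
    obtain ⟨M, hM⟩ := (hw i).cont.bounded_above_of_compact_support (hw i).2
    obtain ⟨M', hM'⟩ := ((hw i).1.continuous_fderiv one_ne_zero).bounded_above_of_compact_support
      ((hw i).2.fderiv ℝ)
    exact ⟨max M M', fun x => (hM x).trans (le_max_left _ _), fun x => (hM' x).trans (le_max_right _ _)⟩
  choose M hM hM' using hb
  have hwf : ∀ i, H1 eX fun x => w i x * f x := fun i => hf.mul_contDiff (hw i).1 (hM i) (hM' i)
  have hd : ∀ i, MemLp (fun x => fderiv ℝ (w i) x (eX i) * f x) 2 volume := fun i => by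
    obtain ⟨K, hK⟩ := ((hw i).dcont (eX i)).bounded_above_of_compact_support ((hw i).dsupp _)
    exact apx_memLp_mul hf.1 ((hw i).dcont _).aestronglyMeasurable (.of_forall hK)
  have i1 : ∀ i, Integrable fun x => wd (eX i) f x ^ 2 := fun i => (hf.2 i).2.integrable_sq
  have i2 : ∀ i, Integrable fun x => (w i x * f x) ^ 2 := fun i => (hwf i).1.integrable_sq
  have i3 : ∀ i, Integrable fun x => wd (eX i) f x * (w i x * f x) := fun i =>
    (hf.2 i).2.integrable_mul (hwf i).1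
  have i4 : ∀ i, Integrable fun x => fderiv ℝ (w i) x (eX i) * f x * f x := fun i =>
    (hd i).integrable_mul hf.1
  have key : ∀ i, 2 * ∫ x, wd (eX i) f x * (w i x * f x) =
      -∫ x, fderiv ℝ (w i) x (eX i) * f x * f x := fun i => by
    have h1 := hf.ibp (hwf i) i
    have h2 : ∫ x, f x * wd (eX i) (fun x => w i x * f x) x =
        ∫ x, (wd (eX i) f x * (w i x * f x) + fderiv ℝ (w i) x (eX i) * f x * f x) := by
      refine integral_congr_ae ?_
      filter_upwards [(hf.hl.mul_contDiff (hw i).1).2 i] with x hx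
      rw [hx]; ring
    rw [h2, integral_add (i3 i) (i4 i)] at h1
    linarith
  have e1 : (fun x => ∑ i, (wd (eX i) f x + w i x * f x) ^ 2) = fun x => ∑ i,
      (wd (eX i) f x ^ 2 + 2 * (wd (eX i) f x * (w i x * f x)) + (w i x * f x) ^ 2) := by
    funext x; exact Finset.sum_congr rfl fun i _ => by ring
  have e2 : (fun x => (∑ i, w i x ^ 2 - ∑ i, fderiv ℝ (w i) x (eX i)) * f x ^ 2) = fun x => ∑ i,
      ((w i x * f x) ^ 2 - fderiv ℝ (w i) x (eX i) * f x * f x) := by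
    funext x; simp only [Fin.sum_univ_three]; ring
  have j0 : ∀ i, Integrable fun x => wd (eX i) f x ^ 2 + 2 * (wd (eX i) f x * (w i x * f x)) :=
    fun i => (i1 i).add ((i3 i).const_mul 2)
  have j1 : ∀ i, Integrable fun x => wd (eX i) f x ^ 2 + 2 * (wd (eX i) f x * (w i x * f x)) +
    (w i x * f x) ^ 2 := fun i => (j0 i).add (i2 i)
  have j2 : ∀ i, Integrable fun x => (w i x * f x) ^ 2 - fderiv ℝ (w i) x (eX i) * f x * f x :=
    fun i => (i2 i).sub (i4 i)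
  rw [e1, e2]
  refine ⟨integrable_finsetSum _ fun i _ => j1 i, integrable_finsetSum _ fun i _ => j2 i, ?_⟩
  rw [integral_finsetSum _ fun i _ => j1 i, integral_finsetSum _ fun i _ => j2 i, hf.dir_eq_sum hf,
    ← Finset.sum_add_distrib]
  refine Finset.sum_congr rfl fun i _ => ?_
  rw [integral_add (j0 i) (i2 i), integral_add (i1 i) ((i3 i).const_mul 2),
    integral_const_mul, integral_sub (i2 i) (i4 i), key, ip]
  simp only [sq]
  ring

end Crest.Agent.R335
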