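/-
R335/OB/Low: lower bounds of the one-body form
Skeleton by helper11 (block OB of row 335); keep the statements unchanged, add any helper lemmas.
-/
import Crest.Agent.R335.OB.Rad

set_option autoImplicit false
set_option linter.unusedSectionVars false
set_option linter.unusedVariables false
set_option linter.unusedSimpArgs false

noncomputable section

namespace Crest.Agent.R335

open MeasureTheory Set Filter Topology Metric
open scoped ENNReal

theorem oblow_one {ε L C : ℝ} (hε : 0 < ε) (hL : 0 < L) {χ : X → ℝ} (hχ : ContDiff ℝ 1 χ) {p x : X}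
    (h0 : 0 ≤ χ x ∧ χ x ≤ 1) (h1 : ‖x - p‖ ≤ L → χ x = 1) (h2 : ‖fderiv ℝ χ x‖ ≤ C / L)
    (hx : x ≠ p) : 2 * (1 / ‖x - p‖) - (2 + C) / L - 2 * ε * (1 / ‖x - p‖) ^ 2 ≤
      ∑ i, fderiv ℝ (fun y => χ y * wf ε p i y) x (eX i) := by
  have h3 := (abs_le.1 ((div_cut hε hχ p x).trans h2)).1
  have h4 := mul_le_mul_of_nonneg_left (le_div_wf hε hx) h0.1
  have h5 : (1 - χ x) * (1 / ‖x - p‖) ≤ 1 / L := by
    rcases le_total ‖x - p‖ L with h | h
    · rw [h1 h, sub_self, zero_mul]; positivity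
    · exact (mul_le_of_le_one_left (by positivity) (by linarith [h0.1])).trans (by gcongr)
  have h6 : χ x * (ε * (1 / ‖x - p‖) ^ 2) ≤ ε * (1 / ‖x - p‖) ^ 2 :=
    mul_le_of_le_one_left (by positivity) h0.2
  have h7 : (2 + C) / L = 2 * (1 / L) + C / L := by ring
  nlinarith

/-- `gst` with `w = χ₊ ∇ρ₊ + χ₋ ∇ρ₋`, `χ±` radial cut-offs (`1` on the ball of radius `L`, `0` off
the ball of radius `2 L ≤ D`); Hardy for the error `2 ε / t²`. -/
theorem low_field : ∃ C : ℝ, 0 < C ∧ ∀ D ε L : ℝ, 0 < ε → 8 ≤ L → 2 * L ≤ D → ∀ f : X → ℝ,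
    H1 eX f → (IntegrableOn (fun x => ∑ i, (wd (eX i) f x + wf ε (nuc D) i x * f x) ^ 2)
        (ball (nuc D) 8)) ∧
      ∫ x in ball (nuc D) 8, ∑ i, (wd (eX i) f x + wf ε (nuc D) i x * f x) ^ 2 ≤
        2 * qf eX (V D) f f + (1 + C / L) * ip f f + 16 * ε * dir eX f f := by
  obtain ⟨C, hC, hcut⟩ := exists_radial_cutoff
  refine ⟨2 * (2 + C), by positivity, fun D ε L hε hL hD f hf => ?_⟩
  have hL0 : 0 < L := by linarith
  obtain ⟨χ, a1, a2, a3, a4, a5, a6, -⟩ := hcut (nuc D) L L hL0.le hL0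
  obtain ⟨χ', b1, b2, b3, b4, b5, b6, -⟩ := hcut (-nuc D) L L hL0.le hL0
  replace a1 : ContDiff ℝ 1 χ := a1.of_le (by norm_num)
  replace b1 : ContDiff ℝ 1 χ' := b1.of_le (by norm_num)
  have ta := tst_cut hε a1 a2 (nuc D)
  have tb := tst_cut hε b1 b2 (-nuc D)
  obtain ⟨i1, i2, h⟩ := gst hf (w := fun i y => χ y * wf ε (nuc D) i y + χ' y * wf ε (-nuc D) i y)
    fun i => ⟨(ta i).1.add (tb i).1, (ta i).2.add (tb i).2⟩
  have hs : ∀ x, 2 * D ≤ ‖x - nuc D‖ + ‖x - -nuc D‖ := fun x => tm_eq D x ▸ tp_add_tm D x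
  have he : EqOn (fun x => ∑ i, (wd (eX i) f x +
      (χ x * wf ε (nuc D) i x + χ' x * wf ε (-nuc D) i x) * f x) ^ 2)
      (fun x => ∑ i, (wd (eX i) f x + wf ε (nuc D) i x * f x) ^ 2) (ball (nuc D) 8) := by
    intro x hx
    rw [mem_ball, dist_eq_norm] at hx
    simp only [a4 x (by linarith), b5 x (by linarith [hs x]), one_mul, zero_mul, add_zero]
  refine ⟨i1.integrableOn.congr_fun he measurableSet_ball, ?_⟩
  rw [← setIntegral_congr_fun measurableSet_ball he]
  refine (setIntegral_le_integral i1 (.of_forall fun x =>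
    Finset.sum_nonneg fun i _ => sq_nonneg _)).trans ?_
  obtain ⟨m1, n1⟩ := hf.hardy (nuc D)
  obtain ⟨m2, n2⟩ := hf.hardy (-nuc D)
  have j1 : Integrable fun x => (1 + 2 * (2 + C) / L) * (f x * f x) :=
    (hf.1.integrable_mul hf.1).const_mul _
  have j2 : Integrable fun x => 2 * (V D x * f x * f x) :=
    ((pot_V D).integrable hf hf.1).const_mul _
  have j3 := m1.integrable_sq.const_mul (2 * ε)
  have j4 := m2.integrable_sq.const_mul (2 * ε)
  have j12 : Integrable fun x => (1 + 2 * (2 + C) / L) * (f x * f x) + 2 * (V D x * f x * f x) :=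
    j1.add j2
  have j34 : Integrable fun x => 2 * ε * (1 / ‖x - nuc D‖ * f x) ^ 2 +
    2 * ε * (1 / ‖x - -nuc D‖ * f x) ^ 2 := j3.add j4
  have hle := integral_mono_ae i2 (j12.add j34) (by
    filter_upwards [ae_ne_pt (nuc D), ae_ne_pt (-nuc D)] with x hx hx'
    have k1 := oblow_one hε hL0 a1 (a3 x) (a4 x) (a6 x) hx
    have k2 := oblow_one hε hL0 b1 (b3 x) (b4 x) (b6 x) hx'
    have k3 : ∑ i, (χ x * wf ε (nuc D) i x + χ' x * wf ε (-nuc D) i x) ^ 2 ≤ 1 := by
      rcases le_total (L + L) ‖x - nuc D‖ with h | h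
      · simp only [a5 x h, zero_mul, zero_add, mul_pow, ← Finset.mul_sum]
        exact mul_le_one₀ (pow_le_one₀ (b3 x).1 (b3 x).2)
          (Finset.sum_nonneg fun i _ => sq_nonneg _) (sum_wf_sq_le hε _ _)
      · simp only [b5 x (by linarith [hs x]), zero_mul, add_zero, mul_pow, ← Finset.mul_sum]
        exact mul_le_one₀ (pow_le_one₀ (a3 x).1 (a3 x).2)
          (Finset.sum_nonneg fun i _ => sq_nonneg _) (sum_wf_sq_le hε _ _)
    have k4 : ∀ i, fderiv ℝ (fun y => χ y * wf ε (nuc D) i y + χ' y * wf ε (-nuc D) i y) x (eX i) =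
        fderiv ℝ (fun y => χ y * wf ε (nuc D) i y) x (eX i) +
          fderiv ℝ (fun y => χ' y * wf ε (-nuc D) i y) x (eX i) := fun i => by
      rw [fderiv_fun_add ((ta i).1.differentiable one_ne_zero x)
        ((tb i).1.differentiable one_ne_zero x)]
      rfl
    have k5 : V D x = -(1 / ‖x - nuc D‖) - 1 / ‖x - -nuc D‖ := by
      rw [V, tm_eq, tp]; ring
    simp only [k4, Finset.sum_add_distrib, Pi.add_apply, k5]
    have k6 : 2 * (2 + C) / L = 2 * ((2 + C) / L) := by ring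
    nlinarith [mul_le_mul_of_nonneg_right k1 (sq_nonneg (f x)),
      mul_le_mul_of_nonneg_right k2 (sq_nonneg (f x)),
      mul_le_mul_of_nonneg_right k3 (sq_nonneg (f x))])
  simp only [Pi.add_apply] at hle
  rw [integral_add j12 j34, integral_add j1 j2, integral_add j3 j4, integral_const_mul,
    integral_const_mul, integral_const_mul, integral_const_mul] at hle
  rw [h, qf, ip]
  nlinarith [mul_le_mul_of_nonneg_left n1 hε.le, mul_le_mul_of_nonneg_left n2 hε.le]

theorem low_all {θ : ℝ} (hθ : 0 < θ) : ∃ D0 : ℝ, ∀ D : ℝ, D0 ≤ D → ∀ f : X → ℝ, H1 eX f →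
    (-1 / 2 - θ) * ip f f ≤ qf eX (V D) f f := by
  obtain ⟨C, hC, h⟩ := low_field
  refine ⟨2 * (8 + C / θ), fun D hD f hf => ?_⟩
  have h0 : 0 < C / θ := by positivity
  have h1 : C / (8 + C / θ) ≤ θ := by
    rw [div_le_iff₀ (by positivity), mul_add, mul_div_cancel₀ _ hθ.ne']
    linarith
  have h2 := mul_le_mul_of_nonneg_right h1 (ip_self_nonneg f)
  have h3 := mul_nonneg hθ.le (ip_self_nonneg f)
  have h4 := dir_self_nonneg (b := eX) f
  refine le_of_forall_pos_le_add fun δ hδ => ?_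
  have h5 := (h D (δ / (8 * (dir eX f f + 1))) _ (by positivity) (by linarith) hD f hf).2
  have h6 := le_trans (setIntegral_nonneg measurableSet_ball fun x _ =>
    Finset.sum_nonneg fun i _ => sq_nonneg _) h5
  have h7 : δ / (8 * (dir eX f f + 1)) * (8 * (dir eX f f + 1)) = δ := by field_simp
  have h8 : 0 < δ / (8 * (dir eX f f + 1)) := by positivity
  nlinarith

/-- `1 / t ≤ 1 / 8 + 1_B / t`, `f² / t ≤ (f / t)² / 16 + 4 f²`, Hardy. -/
theorem low_ball (D : ℝ) {f : X → ℝ} (hf : H1 eX f) (he : ∀ x, f (rf x) ^ 2 = f x ^ 2) :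
    ip f f / 4 ≤ qf eX (V D) f f + ip f f / 2 + 8 * ∫ x in ball (nuc D) 8, f x ^ 2 := by
  obtain ⟨m1, n1⟩ := hf.hardy (nuc D)
  have j1 : Integrable fun x => 1 / 8 * (f x * f x) := (hf.1.integrable_mul hf.1).const_mul _
  have j2 := m1.integrable_sq.const_mul (1 / 16)
  have j3 := (hf.1.integrable_sq.indicator (measurableSet_ball (x := nuc D) (ε := 8))).const_mul 4
  have j12 : Integrable fun x => 1 / 8 * (f x * f x) + 1 / 16 * (1 / ‖x - nuc D‖ * f x) ^ 2 :=
    j1.add j2
  have hle := integral_mono (integrable_inv_mul hf hf.1 (nuc D)) (j12.add j3) fun x => by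
    simp only [Pi.add_apply]
    by_cases hx : x ∈ ball (nuc D) 8
    · rw [indicator_of_mem hx]
      nlinarith [sq_nonneg (1 / ‖x - nuc D‖ * f x / 4 - 2 * f x), mul_self_nonneg (f x)]
    · rw [indicator_of_notMem hx]
      rw [mem_ball, dist_eq_norm, not_lt] at hx
      have : 1 / ‖x - nuc D‖ ≤ 1 / 8 := by gcongr
      nlinarith [mul_le_mul_of_nonneg_right this (mul_self_nonneg (f x)),
        sq_nonneg (1 / ‖x - nuc D‖ * f x)]
  simp only [Pi.add_apply] at hle
  rw [integral_add j12 j3, integral_add j1 j2, integral_const_mul, integral_const_mul,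
    integral_const_mul, integral_indicator measurableSet_ball] at hle
  have h2 : ∫ x, 1 / tm D x * f x * f x = ∫ x, 1 / tp D x * f x * f x := by
    rw [← sym_rf.integral fun x => 1 / tp D x * f x * f x]
    refine integral_congr_ae (.of_forall fun x => ?_)
    simp only [tp_rf, mul_assoc, ← sq, he]
  rw [qf, int_V hf hf.1, h2, ip]
  simp only [tp]
  linarith

theorem oblow_poin : ∃ K : ℝ, 1 ≤ K ∧ ∀ (ε : ℝ) (p : X) (f : X → ℝ), 0 < ε → ε ≤ 1 → H1 eX f →
    IntegrableOn (fun x => ∑ i, (wd (eX i) f x + wf ε p i x * f x) ^ 2) (ball p 8) →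
    ∫ x in ball p 8, Real.exp (rh ε p x) * f x = 0 →
    ∫ x in ball p 8, f x ^ 2 ≤ K * ∫ x in ball p 8, ∑ i, (wd (eX i) f x + wf ε p i x * f x) ^ 2 := by
  obtain ⟨C, hC, h⟩ := poin_ball
  refine ⟨1 + C * 8 ^ 2 * Real.exp 9 ^ 2, le_add_of_nonneg_right (by positivity),
    fun ε p f hε hε1 hf hi h0 => ?_⟩
  have hc : ContDiff ℝ 1 fun x => Real.exp (rh ε p x) :=
    ((contDiff_rh hε p).of_le (by norm_num)).exp
  obtain ⟨hη, hw⟩ := hf.hl.mul_contDiff hc
  obtain ⟨κ, hκ⟩ := h _ p 8 hη (by norm_num)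
  have hsub : ball p 8 ⊆ closedBall (0 : X) (‖p‖ + 8) := fun x hx => by
    rw [mem_closedBall_zero_iff]
    linarith [norm_le_insert' x p, mem_ball_iff_norm.1 hx]
  have m : MemLp (fun x => Real.exp (rh ε p x) * f x) 2 (volume.restrict (ball p 8)) :=
    (hη.1 _).mono_measure (Measure.restrict_mono hsub le_rfl)
  have : IsFiniteMeasure (volume.restrict (ball p 8)) :=
    isFiniteMeasure_restrict.2 measure_ball_lt_top.ne
  have j1 := (m.integrable one_le_two).const_mul (2 * κ)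
  have j2 := (m.sub (memLp_const κ)).integrable_sq
  have h1 := integral_mono hf.1.integrable_sq.integrableOn (j2.add j1) fun x => by
    have : 1 ≤ Real.exp (rh ε p x) := Real.one_le_exp (rh_pos hε p x).le
    simp only [Pi.add_apply, Pi.sub_apply]
    nlinarith [sq_nonneg κ, mul_le_mul_of_nonneg_right (one_le_pow₀ (n := 2) this) (sq_nonneg (f x))]
  simp only [Pi.add_apply, Pi.sub_apply] at h1 j2
  rw [integral_add j2 j1, integral_const_mul, h0] at h1
  have h2 : ∫ x in ball p 8, dot eX (fun x => Real.exp (rh ε p x) * f x)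
      (fun x => Real.exp (rh ε p x) * f x) x ≤
      ∫ x in ball p 8, Real.exp 9 ^ 2 * ∑ i, (wd (eX i) f x + wf ε p i x * f x) ^ 2 := by
    refine integral_mono_of_nonneg (.of_forall fun x => dot_self_nonneg _ _) (hi.const_mul _) ?_
    filter_upwards [ae_restrict_mem measurableSet_ball, ae_restrict_of_ae (ae_all_iff.2 hw)]
      with x hx hw
    have h3 : Real.exp (rh ε p x) ≤ Real.exp 9 :=
      Real.exp_le_exp.2 (by linarith [rh_le hε p x, mem_ball_iff_norm.1 hx])
    have h4 : ∀ i, fderiv ℝ (fun x => Real.exp (rh ε p x)) x (eX i) =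
        Real.exp (rh ε p x) * wf ε p i x := fun i => by
      rw [fderiv_exp ((contDiff_rh hε p).differentiable two_ne_zero x), smul_apply, fderiv_rh hε,
        smul_eq_mul]
    calc _ = Real.exp (rh ε p x) ^ 2 * ∑ i, (wd (eX i) f x + wf ε p i x * f x) ^ 2 := by
          simp only [dot, hw, h4, Finset.mul_sum]
          exact Finset.sum_congr rfl fun i _ => by ring
      _ ≤ _ := mul_le_mul_of_nonneg_right (by gcongr) (Finset.sum_nonneg fun i _ => sq_nonneg _)
  rw [integral_const_mul] at h2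
  have h5 : 0 ≤ ∫ x in ball p 8, ∑ i, (wd (eX i) f x + wf ε p i x * f x) ^ 2 :=
    integral_nonneg fun x => Finset.sum_nonneg fun i _ => sq_nonneg _
  nlinarith [mul_le_mul_of_nonneg_left h2 (show 0 ≤ C * 8 ^ 2 by positivity)]

/-- Poincare on the ball for `η = e^ρ f`; `ψ = 1_B e^ρ`. -/
theorem low_gap : ∃ c0 D0 : ℝ, 0 < c0 ∧ c0 ≤ 1 / 10 ∧ ∀ D : ℝ, D0 ≤ D → ∃ ψ : X → ℝ,
    MemLp ψ 2 volume ∧ ∀ f : X → ℝ, H1 eX f → (∀ x, f (rf x) ^ 2 = f x ^ 2) → ip ψ f = 0 →
      (-1 / 2 + c0) * ip f f ≤ qf eX (V D) f f := by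
  obtain ⟨C, hC, h⟩ := low_field
  obtain ⟨K, hK, hP⟩ := oblow_poin
  have hε : 0 < 1 / (2 ^ 17 * K) := by positivity
  have hε1 : 1 / (2 ^ 17 * K) ≤ 1 := by rw [div_le_one (by positivity)]; linarith
  have hεK : 1 / (2 ^ 17 * K) * K = 1 / 2 ^ 17 := by field_simp
  set ε := 1 / (2 ^ 17 * K)
  refine ⟨1 / (8 * (2 + 16 * K)), 2 * (8 + 128 * K * C), by positivity,
    one_div_le_one_div_of_le (by norm_num) (by linarith), fun D hD =>
    ⟨(ball (nuc D) 8).indicator fun x => Real.exp (rh ε (nuc D) x), ?_, fun f hf he h0 => ?_⟩⟩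
  · have : IsFiniteMeasure (volume.restrict (ball (nuc D) 8)) :=
      isFiniteMeasure_restrict.2 measure_ball_lt_top.ne
    refine (memLp_indicator_iff_restrict measurableSet_ball).2 (MemLp.of_bound
      (contDiff_rh hε _).continuous.rexp.aestronglyMeasurable (Real.exp 9) ?_)
    filter_upwards [ae_restrict_mem measurableSet_ball] with x hx
    rw [Real.norm_of_nonneg (Real.exp_pos _).le]
    exact Real.exp_le_exp.2 (by linarith [rh_le hε (nuc D) x, mem_ball_iff_norm.1 hx])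
  have hKC : 0 < K * C := by positivity
  obtain ⟨h1, h2⟩ := h D ε _ hε (by linarith) hD f hf
  have h3 := hP ε _ f hε hε1 hf h1 (by
    rw [← h0, ip, ← integral_indicator measurableSet_ball]
    simp only [indicator_mul_left])
  have h4 := low_ball D hf he
  have h5 := V_coercive D hf
  have h6 := ip_self_nonneg f
  have h7 : K * (C / (8 + 128 * K * C)) ≤ 1 / 128 := by
    rw [← mul_div_assoc, div_le_iff₀ (by positivity)]
    linarith
  have h8 := mul_le_mul_of_nonneg_left h2 (zero_le_one.trans hK)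
  have h9 := mul_le_mul_of_nonneg_right h7 h6
  have h10 : K * (16 * ε * dir eX f f) = 1 / 2 ^ 13 * dir eX f f := by
    linear_combination 16 * dir eX f f * hεK
  generalize qf eX (V D) f f = q at *
  generalize ip f f = N at *
  have h11 : N / 8 ≤ (1 + 16 * K + 1 / 256) * (q + N / 2) := by nlinarith
  have h12 : 0 ≤ q + N / 2 :=
    (mul_nonneg_iff_of_pos_left (by linarith)).1 (le_trans (by linarith) h11)
  have h13 : 1 / (8 * (2 + 16 * K)) * N ≤ q + N / 2 := by
    rw [one_div_mul_eq_div, div_le_iff₀ (by positivity)]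
    nlinarith
  linarith

end Crest.Agent.R335
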