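/-
R335/OB/Trial: the trial functions
Skeleton by helper11 (block OB of row 335); keep the statements unchanged, add any helper lemmas.
-/
import Crest.Agent.R335.OB.Rad

set_option autoImplicit false
set_option linter.unusedSectionVars false
set_option linter.unusedVariables false
set_option linter.unusedSimpArgs false

noncomputable section

namespace Crest.Agent.R335

open MeasureTheory Set Filter Topology Metric
open scoped ENNReal

/-- `φ = χ' e^{-ρ}`; `gst` with `w = χ ∇ρ`, `χ χ' = χ'`. -/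
theorem trial_one {θ : ℝ} (hθ : 0 < θ) : ∃ L : ℝ, ∀ p : X, ∃ φ : X → ℝ, Tst φ ∧
    (∀ x, L ≤ ‖x - p‖ → φ x = 0) ∧ 0 < ip φ φ ∧
      dir eX φ φ / 2 - ∫ x, 1 / ‖x - p‖ * φ x * φ x ≤ (-1 / 2 + θ) * ip φ φ := by
  obtain ⟨C, hC, hcut⟩ := exists_radial_cutoff
  obtain ⟨K, hK, hbar⟩ := int_bar (μ := 2) two_pos
  have hv : 0 < Real.exp (-4) * volume.real (ball (0 : X) 1) := mul_pos (Real.exp_pos _)
    (ENNReal.toReal_pos (measure_ball_pos _ _ one_pos).ne' measure_ball_lt_top.ne)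
  set v := Real.exp (-4) * volume.real (ball (0 : X) 1) with hv'
  obtain ⟨ε, hε, hε1, hε2, hε3⟩ : ∃ ε : ℝ, 0 < ε ∧ ε ≤ 1 ∧ ε ≤ θ ∧ ε * K ≤ θ * v / 4 :=
    ⟨min (min 1 θ) (θ * v / 4 / K), by positivity, (min_le_left _ _).trans (min_le_left _ _),
      (min_le_left _ _).trans (min_le_right _ _), (le_div_iff₀ hK).1 (min_le_right _ _)⟩
  have hL : 1 ≤ C / ε := (le_div_iff₀ hε).2 (by linarith)
  have hCL : C / (C / ε) = ε := by field_simp
  set L := C / ε
  refine ⟨L + L, fun p => ?_⟩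
  obtain ⟨χ, a1, a2, a3, a4, -, a6, -⟩ := hcut p (L + L) L (by linarith) (by linarith)
  obtain ⟨ζ, b1, b2, b3, b4, b5, b6, -⟩ := hcut p L L (by linarith) (by linarith)
  replace a1 : ContDiff ℝ 1 χ := a1.of_le (by norm_num)
  replace b1 : ContDiff ℝ 1 ζ := b1.of_le (by norm_num)
  rw [hCL] at a6 b6
  obtain ⟨k1, k2, k3, k4⟩ := hbar p
  have hρ : ContDiff ℝ 1 (rh ε p) := (contDiff_rh hε p).of_le (by norm_num)
  have hφ : Tst fun x => ζ x * Real.exp (-rh ε p x) := ⟨b1.mul hρ.neg.exp, b2.mul_right⟩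
  have hd : ∀ x i, fderiv ℝ (fun x => ζ x * Real.exp (-rh ε p x)) x (eX i) =
      (fderiv ℝ ζ x (eX i) - ζ x * wf ε p i x) * Real.exp (-rh ε p x) := fun x i => by
    have h1 := (hρ.differentiable one_ne_zero x).hasFDerivAt
    rw [((b1.differentiable one_ne_zero x).hasFDerivAt.fun_mul h1.fun_neg.exp).fderiv,
      ← fderiv_rh hε]
    simp only [add_apply, smul_apply, neg_apply, smul_eq_mul]
    ring
  set φ := fun x => ζ x * Real.exp (-rh ε p x) with hφ'
  have h1 : H1 eX φ := hφ.h1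
  have jN : Integrable fun x => φ x * φ x := h1.1.integrable_mul h1.1
  have hN : v ≤ ip φ φ := by
    refine le_trans ?_ (setIntegral_le_integral (s := ball p 1) jN
      (.of_forall fun x => mul_self_nonneg _))
    rw [hv', ← Measure.addHaar_real_ball_center volume p]
    refine setIntegral_ge_of_const_le_real measurableSet_ball measure_ball_lt_top.ne
      (fun x hx => ?_) jN.integrableOn
    have hx' := mem_ball_iff_norm.1 hx
    simp only [hφ', b4 x (by linarith), one_mul, ← Real.exp_add]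
    exact Real.exp_le_exp.2 (by linarith [rh_le hε p x])
  refine ⟨φ, hφ, fun x hx => by simp only [hφ', b5 x hx, zero_mul], by linarith, ?_⟩
  obtain ⟨i1, i2, h⟩ := gst h1 (tst_cut hε a1 a2 p)
  have j1 : Integrable fun x => ε ^ 2 * bar 2 p x + 2 * ε * (bar 2 p x * (1 / ‖x - p‖) ^ 2) :=
    (k1.const_mul _).add (k3.const_mul _)
  have j2 := (integrable_inv_mul h1 h1.1 p).const_mul 2
  have j3 : Integrable fun x => 2 * (1 / ‖x - p‖ * φ x * φ x) - (1 - ε) * (φ x * φ x) :=
    j2.sub (jN.const_mul _)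
  have hle := integral_mono_ae (i1.sub i2) (j1.add j3) (by
    filter_upwards [ae_ne_pt p, ae_all_iff.2 fun i => wd_contDiff hφ.1 (eX i)] with x hx hw
    have e1 : Real.exp (-rh ε p x) ^ 2 ≤ bar 2 p x := by
      rw [← Real.exp_nat_mul]
      exact Real.exp_le_exp.2 (by push_cast; linarith [le_rh ε p x])
    have e2 : χ x * ζ x = ζ x := by
      rcases le_total ‖x - p‖ (L + L) with h | h
      · rw [a4 x h, one_mul]
      · rw [b5 x h, mul_zero]
    have e3 : ∑ i, (wd (eX i) φ x + χ x * wf ε p i x * φ x) ^ 2 ≤ ε ^ 2 * bar 2 p x := by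
      calc _ = (∑ i, fderiv ℝ ζ x (eX i) ^ 2) * Real.exp (-rh ε p x) ^ 2 := by
            rw [Finset.sum_mul]
            refine Finset.sum_congr rfl fun i _ => ?_
            rw [hw, hd, ← mul_pow]
            congr 1
            linear_combination wf ε p i x * Real.exp (-rh ε p x) * e2
        _ ≤ _ := by rw [sum_fderiv_sq]; gcongr; exact b6 x
    have e4 : φ x ^ 2 ≤ bar 2 p x := by
      rw [hφ', mul_pow]
      exact (mul_le_of_le_one_left (sq_nonneg _) (pow_le_one₀ (b3 x).1 (b3 x).2)).trans e1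
    have e5 := mul_le_mul_of_nonneg_right e4 (show 0 ≤ ε * (1 / ‖x - p‖) ^ 2 by positivity)
    simp only [Pi.add_apply, Pi.sub_apply]
    rcases le_total ‖x - p‖ (L + L) with h | h
    · have e6 := (abs_le.1 ((div_cut hε a1 p x).trans (a6 x))).2
      have e7 := div_wf_le hε hx
      have e8 := le_sum_wf_sq hε hε1 hx
      simp only [a4 x h, one_mul] at e3 e6 ⊢
      nlinarith [mul_le_mul_of_nonneg_right e6 (sq_nonneg (φ x)),
        mul_le_mul_of_nonneg_right e7 (sq_nonneg (φ x)),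
        mul_le_mul_of_nonneg_right e8 (sq_nonneg (φ x))]
    · have e6 : φ x = 0 := by simp only [hφ', b5 x h, zero_mul]
      rw [e6] at e3 e5 ⊢
      nlinarith)
  simp only [Pi.add_apply, Pi.sub_apply] at hle
  rw [integral_sub i1 i2, integral_add j1 j3, integral_add (k1.const_mul _) (k3.const_mul _),
    integral_sub j2 (jN.const_mul _), integral_const_mul, integral_const_mul, integral_const_mul,
    integral_const_mul, h] at hle
  change _ ≤ _ + (_ - (1 - ε) * ip φ φ) at hle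
  have l1 := mul_le_mul_of_nonneg_left k2 (sq_nonneg ε)
  have l2 := mul_le_mul_of_nonneg_left k4 hε.le
  have l3 : ε ^ 2 * K ≤ ε * K := by gcongr; nlinarith
  have l4 := mul_le_mul_of_nonneg_right hε2 (ip_self_nonneg φ)
  have l5 := mul_le_mul_of_nonneg_left hN hθ.le
  nlinarith

theorem trial {θ : ℝ} (hθ : 0 < θ) : ∃ D0 : ℝ, ∀ D : ℝ, D0 ≤ D → ∀ σ : ℝ, σ = 1 ∨ σ = -1 →
    ∃ φ : X → ℝ, H1 eX φ ∧ (∀ x, φ (rf x) = σ * φ x) ∧ 0 < ip φ φ ∧
      qf eX (V D) φ φ ≤ (-1 / 2 + θ) * ip φ φ := by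
  obtain ⟨L, h⟩ := trial_one hθ
  refine ⟨L, fun D hD σ hσ => ?_⟩
  obtain ⟨φ, h1, h2, h3, h4⟩ := h (nuc D)
  have a1 : H1 eX φ := h1.h1
  have a2 : H1 eX fun x => φ (rf x) := sym_rf.h1 a1
  have hσ2 : σ ^ 2 = 1 := by rcases hσ with rfl | rfl <;> norm_num
  have hz : ∀ x, φ x = 0 ∨ φ (rf x) = 0 := fun x => by
    rcases le_total L (tp D x) with h | h
    · exact Or.inl (h2 x h)
    · refine Or.inr (h2 _ ?_)
      change L ≤ tp D (rf x)
      rw [tp_rf]
      linarith [tp_add_tm D x]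
  have z1 : ip φ (fun x => φ (rf x)) = 0 := by
    simp only [ip, fun x => mul_eq_zero.2 (hz x), integral_zero]
  have z2 : qf eX (V D) φ (fun x => φ (rf x)) = 0 := by
    have : dir eX φ (fun x => φ (rf x)) = 0 := by
      refine integral_eq_zero_of_ae ?_
      filter_upwards [ae_all_iff.2 a1.hl.wd_zero, ae_all_iff.2 a2.hl.wd_zero] with x b1 b2
      refine Finset.sum_eq_zero fun i _ => mul_eq_zero.2 ?_
      exact (hz x).imp (b1 i) (b2 i)
    simp only [qf, this, mul_assoc, fun x => mul_eq_zero.2 (hz x), mul_zero, integral_zero]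
    norm_num
  have z3 := sym_rf.qf (V D) a1.hl a1.hl
  simp only [V_rf] at z3
  have z4 : qf eX (V D) φ φ ≤ (-1 / 2 + θ) * ip φ φ := by
    have : 0 ≤ ∫ x, 1 / tm D x * φ x * φ x := integral_nonneg fun x => by
      rw [mul_assoc]
      exact mul_nonneg (div_nonneg zero_le_one (norm_nonneg _)) (mul_self_nonneg _)
    rw [qf, int_V a1 a1.1]
    simp only [tp]
    linarith
  refine ⟨fun x => 1 * φ x + σ * φ (rf x), (a1.const_mul _).add (a2.const_mul _), fun x => ?_, ?_⟩
  · simp only [rf_rf]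
    linear_combination -φ (rf x) * hσ2
  · rw [(pot_V D).qf_lin a1 a2, ip_lin a1.1 a2.1, z1, z2, z3, sym_rf.ip, hσ2]
    constructor <;> linarith

end Crest.Agent.R335
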