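/-
R335/OB/Eig: the even and the odd ground state
Skeleton by helper11 (block OB of row 335); keep the statements unchanged, add any helper lemmas.
-/
import Crest.Agent.R335.OB.Low
import Crest.Agent.R335.OB.Trial
import Crest.Agent.R335.T.Min

set_option autoImplicit false
set_option linter.unusedSectionVars false
set_option linter.unusedVariables false
set_option linter.unusedSimpArgs false

noncomputable section

namespace Crest.Agent.R335

open MeasureTheory Set Filter Topology Metric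
open scoped ENNReal

/-- The lowest eigenfunction of parity `σ`; `E'` bounds the rest of the spectrum. -/
structure Eig (D σ E' : ℝ) (f : X → ℝ) (e : ℝ) : Prop where
  meas : Measurable f
  h1 : H1 eX f
  par : ∀ x, f (rf x) = σ * f x
  nrm : ip f f = 1
  eq : ∀ φ, H1 eX φ → qf eX (V D) f φ = e * ip f φ
  gap : ∀ h, H1 eX h → (∀ᵐ x : X, h (rf x) = σ * h x) →
    e * ip h h + (E' - e) * (ip h h - ip f h ^ 2) ≤ qf eX (V D) h h
  near : |e + 1 / 2| ≤ 1 / 4000
  lt : e < E'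

theorem exists_eig : ∃ c D0 : ℝ, 0 < c ∧ c ≤ 1 / 10 ∧ ∀ D : ℝ, D0 ≤ D → ∃ E' : ℝ, ∀ σ : ℝ,
    σ = 1 ∨ σ = -1 → ∃ f e, Eig D σ E' f e ∧ e + c ≤ E' := by
  obtain ⟨c0, D1, hc, hc', h1⟩ := low_gap
  have hθ : 0 < min (1 / 4000) (c0 / 2) := by positivity
  have t1 := min_le_left (1 / 4000) (c0 / 2)
  have t2 := min_le_right (1 / 4000) (c0 / 2)
  obtain ⟨D2, h2⟩ := low_all hθ
  obtain ⟨D3, h3⟩ := trial hθ
  refine ⟨c0 / 2, max D1 (max D2 D3), by positivity, by linarith, fun D hD =>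
    ⟨-1 / 2 + c0, fun σ hσ => ?_⟩⟩
  simp only [max_le_iff] at hD
  obtain ⟨ψ, hψ, hg⟩ := h1 D hD.1
  obtain ⟨φ, a1, a2, a3, a4⟩ := h3 D hD.2.2 σ hσ
  have hσ2 : σ ^ 2 = 1 := by rcases hσ with rfl | rfl <;> norm_num
  obtain ⟨f, e, b1, b2, b3, b4, -, b5, b6, b7, b8, b9⟩ := exists_min (pot_V D) sym_rf rf_rf (V_rf D) hσ
    hψ (E' := -1 / 2 + c0) (fun g hg' he h0 => hg g hg' (fun x => by rw [he, mul_pow, hσ2, one_mul]) h0)
    a1 a2 (a4.trans_lt (mul_lt_mul_of_pos_right (by linarith) a3))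
  have c1 := le_of_mul_le_mul_right (b6.trans a4) a3
  have c2 := h2 D hD.2.1 f b2
  rw [b4, b5] at c2
  exact ⟨f, e, ⟨b1, b2, b3, b4, b8, b9, abs_le.2 ⟨by linarith, by linarith⟩, b7⟩, by linarith⟩

variable {D σ E' c e eg eu : ℝ} {f g u : X → ℝ}

theorem Eig.qf_self (h : Eig D σ E' f e) : qf eX (V D) f f = e := by rw [h.eq f h.h1, h.nrm, mul_one]

/-- A normalised function of the same parity and at most the same energy is `± f`. -/
theorem Eig.unique (h : Eig D σ E' f e) (hg : H1 eX g) (hp : ∀ᵐ x : X, g (rf x) = σ * g x)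
    (hn : ip g g = 1) (he : qf eX (V D) g g ≤ e) :
    g =ᵐ[volume] f ∨ g =ᵐ[volume] fun x => -f x := by
  have h1 := (h.gap g hg hp).trans he
  rw [hn] at h1
  refine eq_of_ip_sq h.h1.1 hg.1 h.nrm hn ?_
  by_contra h2
  have := mul_pos (sub_pos.2 h.lt) (sub_pos.2 (not_le.1 h2))
  linarith

theorem Eig.congr (h : Eig D σ E' f e) (hm : Measurable g) (hp : ∀ x, g (rf x) = σ * g x)
    (he : g =ᵐ[volume] f ∨ g =ᵐ[volume] fun x => -f x) : Eig D σ E' g e := by
  obtain ⟨s, hs, he⟩ : ∃ s : ℝ, s ^ 2 = 1 ∧ g =ᵐ[volume] fun x => s * f x := by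
    rcases he with he | he
    · exact ⟨1, by norm_num, by simpa using he⟩
    · exact ⟨-1, by norm_num, by simpa using he⟩
  have h1 : ∀ φ, ip g φ = s * ip f φ := fun φ => by
    rw [ip, ip, ← integral_const_mul]
    refine integral_congr_ae ?_
    filter_upwards [he] with x hx
    rw [hx, mul_assoc]
  have h2 : ip f g = ip g f := by simp only [ip, mul_comm]
  refine ⟨hm, (h.h1.const_mul s).congr he.symm, hp, ?_, fun φ hφ => ?_, fun φ hφ hφ' => ?_,
    h.near, h.lt⟩
  · rw [h1, h2, h1, h.nrm]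
    linarith
  · rw [qf_congr he (EventuallyEq.refl _ φ), qf_const_mul_left h.h1, h.eq φ hφ, h1]
    ring
  · rw [h1, mul_pow, hs, one_mul]
    exact h.gap φ hφ hφ'

theorem obeig_sq (hf : H1 eX f) (h1 : ∀ᵐ x : X, g x ^ 2 = f x ^ 2) (h2 : dir eX g g = dir eX f f) :
    ip g g = ip f f ∧ qf eX (V D) g g = qf eX (V D) f f := by
  refine ⟨integral_congr_ae ?_, ?_⟩
  · filter_upwards [h1] with x hx
    rw [← sq, ← sq, hx]
  · rw [qf, qf, h2]
    congr 1
    refine integral_congr_ae ?_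
    filter_upwards [h1] with x hx
    rw [mul_assoc, mul_assoc, ← sq, ← sq, hx]

theorem Eig.abs (h : Eig D σ E' f e) : ip (fun x => |f x|) (fun x => |f x|) = 1 ∧
    qf eX (V D) (fun x => |f x|) (fun x => |f x|) = e := by
  have := obeig_sq (D := D) h.h1 (.of_forall fun x => sq_abs (f x)) (integral_congr_ae h.h1.abs.2)
  rwa [h.nrm, h.qf_self] at this

theorem Eig.sign_even (h : Eig D 1 E' f e) : ∃ g, Eig D 1 E' g e ∧ ∀ x, 0 ≤ g x := by
  have hp : ∀ x, |f (rf x)| = 1 * |f x| := fun x => by rw [h.par, one_mul, one_mul]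
  exact ⟨_, h.congr (continuous_abs.measurable.comp h.meas) hp
    (h.unique h.h1.abs.1 (.of_forall hp) h.abs.1 h.abs.2.le), fun x => abs_nonneg _⟩

theorem Eig.sign_odd (h : Eig D (-1) E' f e) :
    ∃ u, Eig D (-1) E' u e ∧ ∀ x : X, 0 < x 2 → 0 ≤ u x := by
  have hs : Strip fun x => |f x| :=
    (Strip.of_odd h.h1.hl (.of_forall fun x => by rw [h.par, neg_one_mul])).abs
  obtain ⟨h1, h2⟩ := h.h1.abs.1.oddExt_even hs (.of_forall fun x => by simp [h.par])
  obtain ⟨h3, h4⟩ := obeig_sq (D := D) h.h1.abs.1 h1 h2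
  have hp : ∀ x, oddExt (fun x => |f x|) (rf x) = -1 * oddExt (fun x => |f x|) x := fun x => by
    rw [oddExt_rf, neg_one_mul]
  have hm : Measurable (Hs.indicator fun x => |f x|) :=
    (continuous_abs.measurable.comp h.meas).indicator measurableSet_Hs
  refine ⟨oddExt fun x => |f x|, h.congr (hm.sub (hm.comp sym_rf.mp.measurable)) hp
    (h.unique (h.h1.abs.1.oddExt hs).1 (.of_forall hp) (h3.trans h.abs.1) (h4.trans h.abs.2).le),
    fun x hx => ?_⟩
  rw [oddExt_of_pos _ hx]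
  exact abs_nonneg _

theorem Eig.gap_all (hg : Eig D 1 E' g eg) (hu : Eig D (-1) E' u eu) (hc : eu + c ≤ E')
    (hf : H1 eX f) :
    (eu + c) * ip f f - (eu + c - eg) * ip g f ^ 2 - c * ip u f ^ 2 ≤ qf eX (V D) f f := by
  have hr := sym_rf.h1 hf
  have a1 : H1 eX fun x => 1 / 2 * f x + 1 / 2 * f (rf x) := (hf.const_mul _).add (hr.const_mul _)
  have a2 : H1 eX fun x => 1 / 2 * f x + -1 / 2 * f (rf x) := (hf.const_mul _).add (hr.const_mul _)
  have b1 := hg.gap _ a1 (.of_forall fun x => by simp only [rf_rf]; ring)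
  have b2 := hu.gap _ a2 (.of_forall fun x => by simp only [rf_rf]; ring)
  have c1 := ip_sq_le hg.h1.1 a1.1
  have c2 := ip_sq_le hu.h1.1 a2.1
  have d : ∀ {σ e : ℝ} {g : X → ℝ} (s : ℝ), Eig D σ E' g e →
      ip g (fun x => 1 / 2 * f x + s * f (rf x)) = (1 / 2 + s * σ) * ip g f := fun {σ e g} s h => by
    have d1 := sym_rf.ip g fun x => f (rf x)
    simp only [rf_rf, h.par, ip, mul_assoc, integral_const_mul] at d1
    simp only [ip, mul_add, mul_left_comm (g _)]
    have i1 : Integrable fun x => g x * f x := h.h1.1.integrable_mul hf.1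
    have i2 : Integrable fun x => g x * f (rf x) := h.h1.1.integrable_mul hr.1
    rw [integral_add (i1.const_mul _) (i2.const_mul _), integral_const_mul, integral_const_mul, ← d1]
    ring
  have z3 := sym_rf.qf (V D) hf.hl hf.hl
  simp only [V_rf] at z3
  rw [d _ hg] at b1 c1
  rw [d _ hu] at b2 c2
  rw [hg.nrm] at c1
  rw [hu.nrm] at c2
  rw [(pot_V D).qf_lin hf hr, z3] at b1 b2
  rw [ip_lin hf.1 hr.1, sym_rf.ip] at b1 b2 c1 c2
  nlinarith [mul_le_mul_of_nonneg_right hc (sub_nonneg.2 c1),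
    mul_le_mul_of_nonneg_right hc (sub_nonneg.2 c2)]

end Crest.Agent.R335
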