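/-
R335/OB/Core: bounds near the nuclei
Skeleton by helper11 (block OB of row 335); keep the statements unchanged, add any helper lemmas.
-/
import Crest.Agent.R335.OB.Eig
import Crest.Agent.R335.T.MVG

set_option autoImplicit false
set_option linter.unusedSectionVars false
set_option linter.unusedVariables false
set_option linter.unusedSimpArgs false

noncomputable section

namespace Crest.Agent.R335

open MeasureTheory Set Filter Topology Metric
open scoped ENNReal

/-- `H1.kato`, `mv_global` with `U = -2 V`, `ω = 0`, `s = 0`, `S = 1`. -/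
theorem eig_bdd : ∃ C : ℝ, 1 ≤ C ∧ ∀ (D σ E' : ℝ) (f : X → ℝ) (e : ℝ), Eig D σ E' f e →
    ∀ᵐ x : X, |f x| ≤ C := by
  obtain ⟨M, hM, hI⟩ := int_ball_inv
  obtain ⟨C, hC, h⟩ := mv_global frameX (4 * M) 0
  refine ⟨C + 1, by linarith, fun D σ E' f e hE => ?_⟩
  have hP := (pot_V D).const_mul (-2)
  obtain ⟨_, hP2⟩ := hP.2
  have ha := hE.h1.abs.1
  have he : e ≤ 0 := by linarith [(abs_le.1 hE.near).2]
  have hs : MemLp (fun x => 2 * e * f x + -2 * V D x * f x) 2 volume :=
    (hE.h1.1.const_mul _).add (hP2 f hE.h1).1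
  have := h (fun x => |f x|) (fun x => -2 * V D x) 0 0 1 ha (.of_forall fun x => abs_nonneg _) hP.1
    (fun x => by linarith [V_nonpos D x]) (hP2 _ ha).1 (fun x t ht ht1 => ?_) measurable_const
    (fun x => le_rfl) zero_le_one (fun x t ht ht1 => ⟨integrableOn_zero, by simp; positivity⟩)
    (fun x y => by simp) (fun x => ?_) fun φ hφ h0 => ?_
  · filter_upwards [this] with x hx
    simp at hx
    linarith
  · obtain ⟨i1, k1⟩ := hI x (nuc D) t ht
    obtain ⟨i2, k2⟩ := hI x (-nuc D) t ht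
    have e1 : (fun y => -2 * V D y) = fun y => 2 * (1 / ‖y - nuc D‖) + 2 * (1 / ‖y - -nuc D‖) := by
      funext y; rw [V, tm_eq, tp]; ring
    have e2 : 4 * M * t ^ Fintype.card (Fin 3) / t = 4 * (M * t ^ 2) := by
      rw [Fintype.card_fin]; field_simp
    rw [e1, e2]
    refine ⟨(i1.const_mul 2).add (i2.const_mul 2), ?_⟩
    rw [integral_add (i1.const_mul 2) (i2.const_mul 2), integral_const_mul, integral_const_mul]
    linarith
  · refine (setIntegral_le_integral ha.1.integrable_sq (.of_forall fun x => sq_nonneg _)).trans ?_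
    rw [← ip_self_eq, hE.abs.1]
    simp
  · refine (hE.h1.kato hs (fun ψ hψ => ?_) hφ h0).trans ?_
    · have h1 := hE.eq ψ hψ
      have i1 : Integrable fun x => f x * ψ x := hE.h1.1.integrable_mul hψ.1
      have i2 := (pot_V D).integrable hE.h1 hψ.1
      have h2 : ip (fun x => 2 * e * f x + -2 * V D x * f x) ψ =
          ∫ x, (2 * e * (f x * ψ x) + -2 * (V D x * f x * ψ x)) :=
        integral_congr_ae (.of_forall fun x => by ring)
      rw [h2, integral_add (i1.const_mul _) (i2.const_mul _), integral_const_mul, integral_const_mul]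
      rw [qf, ip] at h1
      linarith
    · have e1 : ∀ x, (SignType.sign (f x) : ℝ) * (2 * e * f x + -2 * V D x * f x) * φ x =
          2 * e * (|f x| * φ x) + -2 * V D x * |f x| * φ x := fun x => by
        rw [← sign_mul_self]; ring
      have i1 : Integrable fun x => |f x| * φ x := ha.1.integrable_mul hφ.memLp
      have i2 := hP.integrable ha hφ.memLp
      simp only [e1, Pi.zero_apply, add_zero]
      refine integral_mono ((i1.const_mul _).add i2) i2 fun x => ?_
      have := mul_nonneg (neg_nonneg.2 he) (mul_nonneg (abs_nonneg (f x)) (h0 x))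
      simp only
      linarith

theorem Eig.lh {D σ E' e : ℝ} {f : X → ℝ} (h : Eig D σ E' f e) : LH eX f := by
  obtain ⟨C, -, hC⟩ := eig_bdd
  exact h.h1.lh (hC _ _ _ _ _ h)

theorem li_lev (D e : ℝ) (S : Set X) : LI S fun x => 2 * V D x - 2 * e := by
  simpa only [sub_eq_add_neg] using
    (((li_V D).const_mul 2).add (LI.const (-(2 * e)))).mono (subset_univ S)

theorem li_zero (S : Set X) : LI S 0 := LI.const 0

theorem Eig.sub {D σ E' e : ℝ} {f : X → ℝ} (h : Eig D σ E' f e) (S : Set X) :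
    Sub eX S f (fun x => 2 * V D x - 2 * e) 0 := by
  simpa only [one_mul] using (sub_of_qf (pot_V D) h.h1 h.eq 1).mono (subset_univ S)

theorem Eig.sub_neg {D σ E' e : ℝ} {f : X → ℝ} (h : Eig D σ E' f e) (S : Set X) :
    Sub eX S (fun x => -f x) (fun x => 2 * V D x - 2 * e) 0 := by
  simpa only [neg_one_mul] using (sub_of_qf (pot_V D) h.h1 h.eq (-1)).mono (subset_univ S)

theorem Eig.super {D σ E' e k : ℝ} {f : X → ℝ} (h : Eig D σ E' f e) {S : Set X}
    (hS : MeasurableSet S) (h0 : ∀ᵐ x : X, x ∈ S → 0 ≤ f x) (hk : 2 ≤ k) :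
    Sub eX S (fun x => -f x) (fun _ => k) 0 := by
  refine (h.sub_neg S).change hS h.lh.neg (li_lev _ _ _) (LI.const _) (li_zero _) (li_zero _) ?_
  filter_upwards [h0] with x h0 hx
  have : 2 * V D x - 2 * e ≤ k := by linarith [V_nonpos D x, (abs_le.1 h.near).1]
  nlinarith [mul_le_mul_of_nonneg_right this (h0 hx)]

/-- `low_ball`, `eig_bdd`, `mv_super`. -/
theorem eig_core (T : ℝ) : ∃ c D0 : ℝ, 0 < c ∧ ∀ D : ℝ, D0 ≤ D → ∀ (σ E' : ℝ) (f : X → ℝ) (e : ℝ),
    σ = 1 ∨ σ = -1 → Eig D σ E' f e → (∀ x : X, 0 < x 2 → 0 ≤ f x) →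
      ∀ᵐ x : X, tp D x < T → c ≤ f x := by
  obtain ⟨C, hC, hb⟩ := eig_bdd
  obtain ⟨T', h1, h2⟩ : ∃ T' : ℝ, 1 ≤ T' ∧ T ≤ T' := ⟨max 1 T, le_max_left _ _, le_max_right _ _⟩
  obtain ⟨c, hc, h⟩ := mv_super 2 (2 * T' + 16)
  refine ⟨c / (2 * T' + 16) ^ 3 * (1 / (40 * C)), 3 * T' + 16, by positivity,
    fun D hD σ E' f e hσ hE h0 => ?_⟩
  have hσ2 : σ ^ 2 = 1 := by rcases hσ with rfl | rfl <;> norm_num
  have hn : ∀ x ∈ ball (nuc D) (T' + (2 * T' + 16)), 0 ≤ f x := fun x hx =>
    h0 x (by linarith [sub_le_tp D x, show tp D x < _ from mem_ball_iff_norm.1 hx])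
  have hi : ∀ x r, IntegrableOn f (ball x r) := fun x r =>
    (hE.h1.1.locallyIntegrable one_le_two).integrableOn_isCompact (isCompact_closedBall x r)
      |>.mono_set ball_subset_closedBall
  have h3 := low_ball D hE.h1 fun x => by rw [hE.par, mul_pow, hσ2, one_mul]
  rw [hE.nrm, hE.qf_self] at h3
  have h4 : ∫ x in ball (nuc D) 8, f x ^ 2 ≤ ∫ x in ball (nuc D) 8, C * f x := by
    refine integral_mono_ae hE.h1.1.integrable_sq.integrableOn ((hi _ _).const_mul C) ?_
    filter_upwards [ae_restrict_mem measurableSet_ball, ae_restrict_of_ae (hb _ _ _ _ _ hE)]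
      with x hx hx'
    rw [sq]
    exact mul_le_mul_of_nonneg_right ((le_abs_self _).trans hx')
      (hn x (ball_subset_ball (by linarith) hx))
  rw [integral_const_mul] at h4
  have h5 : 1 / (40 * C) ≤ ∫ x in ball (nuc D) 8, f x := by
    rw [div_le_iff₀ (by positivity)]
    linarith [(abs_le.1 hE.near).2]
  filter_upwards [h f (nuc D) T' _ (by positivity) le_rfl hE.h1.hl (.of_forall hn)
    (hE.super measurableSet_ball (.of_forall hn) le_rfl)] with x hx ht
  have ht' : dist x (nuc D) < T' := by rw [dist_eq_norm]; exact ht.trans_le h2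
  refine le_trans (mul_le_mul_of_nonneg_left (h5.trans ?_) (by positivity)) (hx ht')
  refine setIntegral_mono_set (hi _ _) ?_ (LE.le.eventuallyLE
    (ball_subset_ball' (by rw [dist_comm]; linarith)))
  filter_upwards [ae_restrict_mem measurableSet_ball] with y hy
  exact hn y (ball_subset_ball' (by linarith) hy)

end Crest.Agent.R335
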