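/-
R335/OB/Bar: exponential barriers
Skeleton by helper11 (block OB of row 335); keep the statements unchanged, add any helper lemmas.
-/
import Crest.Agent.R335.OB.Core

set_option autoImplicit false
set_option linter.unusedSectionVars false
set_option linter.unusedVariables false
set_option linter.unusedSimpArgs false

noncomputable section

namespace Crest.Agent.R335

open MeasureTheory Set Filter Topology Metric
open scoped ENNReal

/-- the exterior of the two cores -/
def obO (D : ℝ) : Set X := {x | 10000 < tp D x ∧ 10000 < tm D x}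
def obK (D : ℝ) : Set X := {x | 10001 ≤ tp D x ∧ 10001 ≤ tm D x}
/-- the barrier -/
def obW (D α β μ : ℝ) (x : X) : ℝ := α * Real.exp (-μ * tp D x) + β * Real.exp (-μ * tm D x)

theorem continuous_tp (D : ℝ) : Continuous (tp D) := by unfold tp; fun_prop
theorem continuous_tm (D : ℝ) : Continuous (tm D) := by unfold tm; fun_prop

theorem obO_open (D : ℝ) : IsOpen (obO D) :=
  (isOpen_lt continuous_const (continuous_tp D)).inter (isOpen_lt continuous_const (continuous_tm D))

theorem obK_closed (D : ℝ) : IsClosed (obK D) :=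
  (isClosed_le continuous_const (continuous_tp D)).inter
    (isClosed_le continuous_const (continuous_tm D))

theorem obK_sub (D : ℝ) : obK D ⊆ obO D := fun x hx =>
  ⟨by linarith [hx.1], by linarith [hx.2]⟩

theorem obW_eq (D α β μ : ℝ) :
    obW D α β μ = fun y => α * bar μ (nuc D) y + β * bar μ (-nuc D) y := by
  funext y; rw [obW, tm_eq]; rfl

theorem obO_ne {D : ℝ} {x : X} (hx : x ∈ obO D) : x ≠ nuc D ∧ x ≠ -nuc D := by
  obtain ⟨h1, h2⟩ := hx
  constructor
  · rintro rfl; norm_num [tp] at h1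
  · rintro rfl; norm_num [tm] at h2

theorem obW_contDiffOn (D α β μ : ℝ) : ContDiffOn ℝ 2 (obW D α β μ) (obO D) := by
  rw [obW_eq]
  exact (contDiffOn_const.mul ((contDiffOn_bar μ _).mono fun x hx => (obO_ne hx).1)).add
    (contDiffOn_const.mul ((contDiffOn_bar μ _).mono fun x hx => (obO_ne hx).2))

theorem obW_lap {D : ℝ} (α β μ : ℝ) {x : X} (hx : x ∈ obO D) : R338.lap (obW D α β μ) x =
    α * ((μ ^ 2 - 2 * μ / tp D x) * Real.exp (-μ * tp D x)) +
      β * ((μ ^ 2 - 2 * μ / tm D x) * Real.exp (-μ * tm D x)) := by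
  rw [obW_eq, lap_bar2 μ α β (obO_ne hx).1 (obO_ne hx).2, tm_eq]
  rfl

theorem obW_memLp (D α β : ℝ) {μ : ℝ} (hμ : 0 < μ) : MemLp (obW D α β μ) 2 volume := by
  rw [obW_eq]
  exact ((memLp_bar hμ _).const_mul α).add ((memLp_bar hμ _).const_mul β)

theorem obW_lh (D α β μ : ℝ) : LH eX (obW D α β μ) := by
  rw [obW_eq]
  exact ((lh_bar μ _).const_mul α).add ((lh_bar μ _).const_mul β)

theorem notMem_obK {D : ℝ} {x : X} (hx : x ∉ obK D) : tp D x < 10001 ∨ tm D x < 10001 := by
  simpa only [obK, mem_ofPred_eq, not_and_or, not_le] using hx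

theorem Eig.lev {D σ E' e : ℝ} {f : X → ℝ} (h : Eig D σ E' f e) {x : X} (hx : x ∈ obO D) :
    (999 / 1000) ^ 2 ≤ 2 * V D x - 2 * e ∧ 2 * V D x - 2 * e ≤ 1001 / 1000 := by
  have h1 : 1 / tp D x ≤ 1 / 10000 := by gcongr; exact hx.1.le
  have h2 : 1 / tm D x ≤ 1 / 10000 := by gcongr; exact hx.2.le
  have h3 : V D x = -(1 / tp D x) - 1 / tm D x := by rw [V]; ring
  obtain ⟨h4, h5⟩ := abs_le.1 h.near
  exact ⟨by linarith, by linarith [V_nonpos D x]⟩

theorem obbar_one {t : ℝ} (ht : t < 10001) (h0 : 0 ≤ t) :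
    1 ≤ Real.exp 10001 * Real.exp (-(999 / 1000) * t) := by
  rw [← Real.exp_add]
  exact Real.one_le_exp (by linarith)

theorem obbar_le {μ t : ℝ} (hμ : 0 ≤ μ) (h0 : 0 ≤ t) : Real.exp (-μ * t) ≤ 1 :=
  Real.exp_le_one_iff.2 (by nlinarith)

theorem bar_g_up : ∃ C : ℝ, 1 ≤ C ∧ ∀ (D E' : ℝ) (g : X → ℝ) (e : ℝ), Eig D 1 E' g e →
    ∀ᵐ x : X, g x ≤
      C * (Real.exp (-(999 / 1000) * tp D x) + Real.exp (-(999 / 1000) * tm D x)) := by
  obtain ⟨C, hC, hb⟩ := eig_bdd
  have hC' : 1 ≤ C * Real.exp 10001 := one_le_mul_of_one_le_of_one_le hC (Real.one_le_exp (by norm_num))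
  refine ⟨C * Real.exp 10001, hC', fun D E' g e h => ?_⟩
  set A := C * Real.exp 10001 with hA
  have hw : ∀ x, 0 ≤ obW D A A (999 / 1000) x := fun x => by unfold obW; positivity
  have hc : ∀ᵐ x : X, x ∉ obK D → g x ≤ obW D A A (999 / 1000) x := by
    filter_upwards [hb _ _ _ _ _ h] with x hx hK
    have h1 := Real.exp_pos (-(999 / 1000) * tp D x)
    have h2 := Real.exp_pos (-(999 / 1000) * tm D x)
    refine ((le_abs_self _).trans hx).trans ?_
    rw [obW, ← mul_add, hA, mul_assoc]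
    refine le_mul_of_one_le_right (by linarith) ?_
    rcases notMem_obK hK with h | h <;> nlinarith [obbar_one h (norm_nonneg _), Real.exp_pos 10001]
  have := compare (obO_open D) (obK_closed D) (obK_sub D) (obW_contDiffOn D A A (999 / 1000)) h.lh
    (h.sub _) (li_lev _ _ _) (li_zero _) (hc.mono fun x hx _ => hx) (a0 := (999 / 1000) ^ 2)
    (by norm_num) (.of_forall fun x hx hlt => ?_) h.h1.1 (.of_forall fun x _ => by linarith [hw x])
  · filter_upwards [this, hc] with x h1 h2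
    rw [mul_add]
    by_cases hx : x ∈ obK D
    · exact h1 (obK_sub D hx)
    · exact h2 hx
  · have h1 := mul_le_mul_of_nonneg_right (h.lev (obK_sub D hx)).1 ((hw x).trans hlt.le)
    have h2 : 0 ≤ A * (2 * (999 / 1000) / tp D x * Real.exp (-(999 / 1000) * tp D x)) := by
      unfold tp; positivity
    have h3 : 0 ≤ A * (2 * (999 / 1000) / tm D x * Real.exp (-(999 / 1000) * tm D x)) := by
      unfold tm; positivity
    rw [obW_lap _ _ _ (obK_sub D hx), obW, Pi.zero_apply]
    linarith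

theorem bar_g_lo : ∃ c D0 : ℝ, 0 < c ∧ ∀ D : ℝ, D0 ≤ D → ∀ (E' : ℝ) (g : X → ℝ) (e : ℝ),
    Eig D 1 E' g e → (∀ x, 0 ≤ g x) → ∀ᵐ x : X,
      c * (Real.exp (-(1001 / 1000) * tp D x) + Real.exp (-(1001 / 1000) * tm D x)) ≤ g x := by
  obtain ⟨c, D0, hc0, hcore⟩ := eig_core 10001
  refine ⟨c / 2, D0, by positivity, fun D hD E' g e h g0 => ?_⟩
  have h0 := hcore D hD _ _ _ _ (Or.inl rfl) h fun x _ => g0 x
  have hc : ∀ᵐ x : X, x ∉ obK D → -g x ≤ obW D (-(c / 2)) (-(c / 2)) (1001 / 1000) x := by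
    filter_upwards [h0, sym_rf.ae h0] with x h1 h2 hK
    rw [tp_rf, h.par, one_mul] at h2
    have h3 := obbar_le (μ := 1001 / 1000) (by norm_num) (show 0 ≤ tp D x from norm_nonneg _)
    have h4 := obbar_le (μ := 1001 / 1000) (by norm_num) (show 0 ≤ tm D x from norm_nonneg _)
    have h5 := (notMem_obK hK).elim h1 h2
    rw [obW]
    nlinarith
  have := compare (obO_open D) (obK_closed D) (obK_sub D)
    (obW_contDiffOn D (-(c / 2)) (-(c / 2)) (1001 / 1000)) h.lh.neg
    (h.sub_neg _) (li_lev _ _ _) (li_zero _) (hc.mono fun x hx _ => hx) (a0 := 1001 / 1000)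
    (by norm_num) (.of_forall fun x hx hlt => ?_)
    (obW_memLp D (c / 2) (c / 2) (μ := 1001 / 1000) (by norm_num))
    (.of_forall fun x _ => by simp only [obW]; linarith [g0 x])
  · filter_upwards [this, hc] with x h1 h2
    have : -g x ≤ obW D (-(c / 2)) (-(c / 2)) (1001 / 1000) x := by
      by_cases hx : x ∈ obK D
      · exact h1 (obK_sub D hx)
      · exact h2 hx
    rw [obW] at this
    linarith
  · have h1 := mul_le_mul_of_nonneg_right (h.lev (obK_sub D hx)).2 (g0 x)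
    have h2 : ∀ t : ℝ, 10001 ≤ t → c / 2 * (1001 / 1000 * Real.exp (-(1001 / 1000) * t)) ≤
        c / 2 * (((1001 / 1000) ^ 2 - 2 * (1001 / 1000) / t) * Real.exp (-(1001 / 1000) * t)) := by
      intro t ht
      have : 2 * (1001 / 1000) / t ≤ 2 * (1001 / 1000) / 10001 := by gcongr
      gcongr
      linarith
    rw [obW_lap _ _ _ (obK_sub D hx), obW, Pi.zero_apply]
    linarith [h2 _ hx.1, h2 _ hx.2]

theorem obbar_tp {D : ℝ} (hD : 10002 ≤ D) {x : X} (hx : 0 < x 2) (hK : x ∉ obK D) :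
    tp D x < 10001 :=
  (notMem_obK hK).resolve_right (by linarith [add_le_tm D x])

theorem obbar_diff {D μ : ℝ} (hD : 0 ≤ D) (hμ : 0 ≤ μ) {x : X} (hx : 0 < x 2) :
    Real.exp (-μ * tm D x) ≤ Real.exp (-μ * tp D x) :=
  Real.exp_le_exp.2 (by nlinarith [tp_le_tm hD hx])

theorem Eig.strip {D E' e : ℝ} {u : X → ℝ} (h : Eig D (-1) E' u e) : Strip u :=
  Strip.of_odd h.h1.hl (.of_forall fun x => by rw [h.par, neg_one_mul])

theorem bar_u_up : ∃ C D0 : ℝ, 1 ≤ C ∧ ∀ D : ℝ, D0 ≤ D → ∀ (E' : ℝ) (u : X → ℝ) (e : ℝ),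
    Eig D (-1) E' u e → ∀ᵐ x : X, 0 < x 2 → u x ≤
      C * (Real.exp (-(999 / 1000) * tp D x) - Real.exp (-(999 / 1000) * tm D x)) := by
  obtain ⟨C, hC, hb⟩ := eig_bdd
  have hC' : 1 ≤ C * (2 * Real.exp 10001) :=
    one_le_mul_of_one_le_of_one_le hC (by linarith [Real.one_le_exp (x := 10001) (by norm_num)])
  refine ⟨C * (2 * Real.exp 10001), 10002, hC', fun D hD E' u e h => ?_⟩
  set A := C * (2 * Real.exp 10001) with hA
  have hw : ∀ x : X, 0 < x 2 → 0 ≤ obW D A (-A) (999 / 1000) x := fun x hx => by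
    have := obbar_diff (D := D) (μ := 999 / 1000) (by linarith) (by norm_num) hx
    unfold obW
    nlinarith
  have hc : ∀ᵐ x : X, 0 < x 2 → x ∉ obK D → u x ≤ obW D A (-A) (999 / 1000) x := by
    filter_upwards [hb _ _ _ _ _ h] with x hx h0 hK
    have h1 := obbar_tp hD h0 hK
    have h2 : 2 * Real.exp (-(999 / 1000) * tm D x) ≤ Real.exp (-(999 / 1000) * tp D x) := by
      refine (mul_le_mul_of_nonneg_right (show 2 ≤ Real.exp 1 by linarith [Real.add_one_le_exp 1])
        (Real.exp_pos _).le).trans ?_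
      rw [← Real.exp_add]
      exact Real.exp_le_exp.2 (by linarith [tp_add_tm D x])
    refine ((le_abs_self _).trans hx).trans ?_
    rw [obW, neg_mul A, ← sub_eq_add_neg, ← mul_sub, hA, mul_assoc]
    refine le_mul_of_one_le_right (by linarith) ?_
    nlinarith [obbar_one h1 (norm_nonneg _), Real.exp_pos 10001]
  have := compare_half (obO_open D) (obK_closed D) (obK_sub D)
    (obW_contDiffOn D A (-A) (999 / 1000)) h.lh (h.sub _) (li_lev _ _ _) (li_zero _)
    (hc.mono fun x hx h0 _ => hx h0) (a0 := (999 / 1000) ^ 2)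
    (by norm_num) (.of_forall fun x h0 hx hlt => ?_) h.h1.1
    (.of_forall fun x h0 _ => by linarith [hw x h0]) h.strip h.h1.hl.1
    (.of_forall fun x h0 _ _ => by linarith [hw x h0])
  · filter_upwards [this, hc] with x h1 h2 h0
    have : u x ≤ obW D A (-A) (999 / 1000) x := by
      by_cases hx : x ∈ obK D
      · exact h1 h0 (obK_sub D hx)
      · exact h2 h0 hx
    rw [obW] at this
    linarith
  · have h1 := mul_le_mul_of_nonneg_right (h.lev (obK_sub D hx)).1 ((hw x h0).trans hlt.le)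
    have h2 : A * (2 * (999 / 1000) / tm D x * Real.exp (-(999 / 1000) * tm D x)) ≤
        A * (2 * (999 / 1000) / tp D x * Real.exp (-(999 / 1000) * tp D x)) := by
      have h3 := obbar_diff (D := D) (μ := 999 / 1000) (by linarith) (by norm_num) h0
      have h4 := tp_le_tm (D := D) (by linarith) h0
      have h5 : 0 < tp D x := by linarith [hx.1]
      gcongr
    rw [obW_lap _ _ _ (obK_sub D hx), obW, Pi.zero_apply]
    linarith

theorem obbar_odd {s t : ℝ} (hs : 10001 ≤ s) (hst : s ≤ t) :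
    1001 / 1000 * (Real.exp (-(1001 / 1000) * s) - Real.exp (-(1001 / 1000) * t)) ≤
      ((1001 / 1000) ^ 2 - 2 * (1001 / 1000) / s) * Real.exp (-(1001 / 1000) * s) -
        ((1001 / 1000) ^ 2 - 2 * (1001 / 1000) / t) * Real.exp (-(1001 / 1000) * t) := by
  have h0 := Real.exp_pos (-(1001 / 1000) * t)
  have h1 : (1001 / 1000 * (t - s) + 1) * Real.exp (-(1001 / 1000) * t) ≤
      Real.exp (-(1001 / 1000) * s) := by
    refine (mul_le_mul_of_nonneg_right (Real.add_one_le_exp _) h0.le).trans_eq ?_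
    rw [← Real.exp_add]
    congr 1
    ring
  have h2 : 2 * (1001 / 1000) / s ≤ 2 * (1001 / 1000) / 10001 := by gcongr
  have h3 : 2 * (1001 / 1000) / s - 2 * (1001 / 1000) / t ≤ 1001 / 1000 * (t - s) / 10000 := by
    rw [div_sub_div _ _ (by linarith) (by linarith),
      div_le_div_iff₀ (mul_pos (by linarith) (by linarith)) (by norm_num)]
    have : 20000 ≤ s * t := by nlinarith
    nlinarith [mul_le_mul_of_nonneg_left this (sub_nonneg.2 hst)]
  have h4 : 0 ≤ Real.exp (-(1001 / 1000) * s) - Real.exp (-(1001 / 1000) * t) := by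
    nlinarith [mul_nonneg (sub_nonneg.2 hst) h0.le]
  nlinarith [mul_le_mul_of_nonneg_right h2 h4, mul_le_mul_of_nonneg_right h3 h0.le]

theorem bar_u_lo : ∃ c D0 : ℝ, 0 < c ∧ ∀ D : ℝ, D0 ≤ D → ∀ (E' : ℝ) (u : X → ℝ) (e : ℝ),
    Eig D (-1) E' u e → (∀ x : X, 0 < x 2 → 0 ≤ u x) → ∀ᵐ x : X, 0 < x 2 →
      c * (Real.exp (-(1001 / 1000) * tp D x) - Real.exp (-(1001 / 1000) * tm D x)) ≤ u x := by
  obtain ⟨c, D0, hc0, hcore⟩ := eig_core 10001
  refine ⟨c, max D0 10002, hc0, fun D hD E' u e h u0 => ?_⟩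
  obtain ⟨hD, hD'⟩ := max_le_iff.1 hD
  have hc : ∀ᵐ x : X, 0 < x 2 → x ∉ obK D → -u x ≤ obW D (-c) c (1001 / 1000) x := by
    filter_upwards [hcore D hD _ _ _ _ (Or.inr rfl) h u0] with x h1 h0 hK
    have h3 := obbar_le (μ := 1001 / 1000) (by norm_num) (show 0 ≤ tp D x from norm_nonneg _)
    have h4 := Real.exp_pos (-(1001 / 1000) * tm D x)
    have h5 := h1 (obbar_tp hD' h0 hK)
    rw [obW]
    nlinarith
  have hp : ∀ x : X, 0 < x 2 →
      -u x - obW D (-c) c (1001 / 1000) x ≤ obW D c (-c) (1001 / 1000) x := fun x h0 => by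
    simp only [obW]; linarith [u0 x h0]
  have := compare_half (obO_open D) (obK_closed D) (obK_sub D)
    (obW_contDiffOn D (-c) c (1001 / 1000)) h.lh.neg (h.sub_neg _) (li_lev _ _ _) (li_zero _)
    (hc.mono fun x hx h0 _ => hx h0) (a0 := 1001 / 1000) (by norm_num)
    (.of_forall fun x h0 hx hlt => ?_) (obW_memLp D c (-c) (μ := 1001 / 1000) (by norm_num))
    (.of_forall fun x h0 _ => hp x h0) (Strip.of_odd (obW_lh D c (-c) (1001 / 1000)).1
      (.of_forall fun x => by simp only [obW, tp_rf, tm_rf]; ring))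
    (obW_lh D c (-c) (1001 / 1000)).1.1 (.of_forall fun x h0 _ _ => hp x h0)
  · filter_upwards [this, hc] with x h1 h2 h0
    have : -u x ≤ obW D (-c) c (1001 / 1000) x := by
      by_cases hx : x ∈ obK D
      · exact h1 h0 (obK_sub D hx)
      · exact h2 h0 hx
    rw [obW] at this
    linarith
  · have h1 := mul_le_mul_of_nonneg_right (h.lev (obK_sub D hx)).2 (u0 x h0)
    have h2 := mul_le_mul_of_nonneg_left (obbar_odd hx.1 (tp_le_tm (by linarith) h0)) hc0.le
    rw [obW_lap _ _ _ (obK_sub D hx), obW, Pi.zero_apply]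
    linarith

end Crest.Agent.R335
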