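/-
R335/OB/Rest: Harnack, the splitting of the two levels
Skeleton by helper11 (block OB of row 335); keep the statements unchanged, add any helper lemmas.
-/
import Crest.Agent.R335.OB.Core
import Crest.Agent.R335.T.MV

set_option autoImplicit false
set_option linter.unusedSectionVars false
set_option linter.unusedVariables false
set_option linter.unusedSimpArgs false

noncomputable section

namespace Crest.Agent.R335

open MeasureTheory Set Filter Topology Metric
open scoped ENNReal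

theorem obrest_tp (D : ℝ) (x y : X) : tp D x ≤ tp D y + dist x y := by
  rw [tp, tp, ← dist_eq_norm, ← dist_eq_norm, add_comm]
  exact dist_triangle _ _ _

theorem obrest_tm (D : ℝ) (x y : X) : tm D x ≤ tm D y + dist x y := by
  rw [tm_eq, tm_eq, ← dist_eq_norm, ← dist_eq_norm, add_comm]
  exact dist_triangle _ _ _

theorem obrest_ex {S : Set X} (hS : IsOpen S) (hn : S.Nonempty) {p : X → Prop}
    (h : ∀ᵐ x : X, p x) : ∃ x ∈ S, p x :=
  Measure.exists_mem_of_measure_ne_zero_of_ae (hS.measure_pos volume hn).ne' (ae_restrict_of_ae h)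

theorem eig_harn {C : ℝ} (hC : 1 ≤ C) : ∃ C' : ℝ, 1 ≤ C' ∧ ∀ (D E' : ℝ) (g : X → ℝ) (e : ℝ),
    Eig D 1 E' g e →
    (∀ᵐ x : X, g x ≤
      C * (Real.exp (-(999 / 1000) * tp D x) + Real.exp (-(999 / 1000) * tm D x))) →
    (∀ᵐ x : X,
      C⁻¹ * (Real.exp (-(1001 / 1000) * tp D x) + Real.exp (-(1001 / 1000) * tm D x)) ≤ g x) →
    ∀ x0 : X, ∃ m : ℝ, 0 < m ∧ ∀ᵐ x : X, x ∈ ball x0 8 → m ≤ g x ∧ g x ≤ C' * m := by
  obtain ⟨C0, hC0, hH⟩ := harnack 4 8 (by norm_num)
  have h0 : 0 < 2 * C ^ 2 * Real.exp 66 := by positivity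
  refine ⟨C0 + 2 * C ^ 2 * Real.exp 66, by linarith, fun D E' g e h hup hlo x0 => ?_⟩
  have hpos : ∀ᵐ x : X, 0 < g x := hlo.mono fun x hx => lt_of_lt_of_le (by positivity) hx
  by_cases hx0 : 57 ≤ tp D x0 ∧ 57 ≤ tm D x0
  · have hn : ∀ᵐ x : X, x ∈ ball x0 (7 * 8) → 0 ≤ g x := hpos.mono fun x hx _ => hx.le
    obtain ⟨m, hm, hb⟩ := hH g x0 h.h1.hl hn ((h.sub _).change measurableSet_ball h.lh
      (li_lev _ _ _) (LI.const _) (li_zero _) (li_zero _) (hpos.mono fun x hx hb => by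
        rw [mem_ball, dist_comm] at hb
        have h1 : 1 / tp D x ≤ 1 / 1 := by gcongr; linarith [obrest_tp D x0 x]
        have h2 : 1 / tm D x ≤ 1 / 1 := by gcongr; linarith [obrest_tm D x0 x]
        have h3 : V D x = -(1 / tp D x) - 1 / tm D x := by rw [V]; ring
        have h4 : -4 ≤ 2 * V D x - 2 * e := by linarith [(abs_le.1 h.near).2]
        linarith [mul_le_mul_of_nonneg_right h4 hx.le]))
      (h.super measurableSet_ball hn (by norm_num))
    obtain ⟨y, hy, h1, h2⟩ := obrest_ex isOpen_ball (nonempty_ball.2 (show (0 : ℝ) < 8 by norm_num))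
      (hb.and hpos)
    refine ⟨m, (mul_pos_iff_of_pos_left (by linarith)).1 (h2.trans_le (h1 hy).2), hb.mono fun x hx hb' =>
      ⟨(hx hb').1, (hx hb').2.trans (mul_le_mul_of_nonneg_right (by linarith) hm)⟩⟩
  · refine ⟨C⁻¹ * Real.exp (-66), by positivity, ?_⟩
    filter_upwards [hup, hlo] with x h1 h2 hb
    rw [mem_ball] at hb
    refine ⟨le_trans (mul_le_mul_of_nonneg_left ?_ (by positivity)) h2, h1.trans ?_⟩
    · rcases not_and_or.1 hx0 with h | h
      · exact le_add_of_le_of_nonneg (Real.exp_le_exp.2 (by linarith [obrest_tp D x x0]))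
          (Real.exp_pos _).le
      · exact le_add_of_nonneg_of_le (Real.exp_pos _).le
          (Real.exp_le_exp.2 (by linarith [obrest_tm D x x0]))
    · have h3 : Real.exp (-(999 / 1000) * tp D x) ≤ 1 :=
        Real.exp_le_one_iff.2 (by linarith [show 0 ≤ tp D x from norm_nonneg _])
      have h4 : Real.exp (-(999 / 1000) * tm D x) ≤ 1 :=
        Real.exp_le_one_iff.2 (by linarith [show 0 ≤ tm D x from norm_nonneg _])
      have h5 : 2 * C ^ 2 * Real.exp 66 * (C⁻¹ * Real.exp (-66)) = C * 2 := by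
        rw [Real.exp_neg]; field_simp
      have h6 : 0 ≤ C0 * (C⁻¹ * Real.exp (-66)) := by positivity
      rw [add_mul, h5]
      nlinarith

theorem eig_lt {D E' C eg eu : ℝ} {g u : X → ℝ} (hC : 1 ≤ C) (hg : Eig D 1 E' g eg)
    (hu : Eig D (-1) E' u eu) (h0 : ∀ x : X, 0 < x 2 → 0 ≤ u x)
    (h1 : ∀ᵐ x : X,
      C⁻¹ * (Real.exp (-(1001 / 1000) * tp D x) + Real.exp (-(1001 / 1000) * tm D x)) ≤ g x)
    (h2 : ∀ᵐ x : X, 0 < x 2 → u x ≤
      C * (Real.exp (-(999 / 1000) * tp D x) - Real.exp (-(999 / 1000) * tm D x))) :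
    eg < eu := by
  by_contra hle
  have hun := hg.unique hu.h1.abs.1 (.of_forall fun x => by simp [hu.par]) hu.abs.1
    (hu.abs.2.le.trans (not_lt.1 hle))
  have ho : IsOpen {x : X |
      C * (Real.exp (-(999 / 1000) * tp D x) - Real.exp (-(999 / 1000) * tm D x)) <
      C⁻¹ * (Real.exp (-(1001 / 1000) * tp D x) + Real.exp (-(1001 / 1000) * tm D x))} := by
    unfold tp tm
    exact isOpen_lt (by fun_prop) (by fun_prop)
  obtain ⟨r, hr, hb⟩ := Metric.isOpen_iff.1 ho 0 (by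
    have : tp D 0 = tm D 0 := by simp [tp, tm]
    rw [mem_ofPred_eq, this, sub_self, mul_zero]
    positivity)
  have hn : (ball (0 : X) r ∩ Hs).Nonempty := ⟨EuclideanSpace.single 2 (r / 2), by
    simp [abs_of_pos hr, hr], by simp [Hs, hr]⟩
  have ho' : IsOpen (ball (0 : X) r ∩ Hs) :=
    isOpen_ball.inter (isOpen_lt continuous_const (by fun_prop))
  rcases hun with h | h
  · obtain ⟨x, hx, a1, a2, a3⟩ := obrest_ex ho' hn (h1.and (h2.and h))
    have := hb hx.1
    rw [mem_ofPred_eq] at this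
    linarith [a2 hx.2, le_abs_self (u x), abs_of_nonneg (h0 x hx.2)]
  · obtain ⟨x, hx, a1, a3⟩ := obrest_ex ho' hn (h1.and h)
    have : 0 < g x := lt_of_lt_of_le (by positivity) a1
    linarith [abs_nonneg (u x)]

/-- an odd step function of the height -/
theorem obrest_step : ∃ (χ : X → ℝ) (M : ℝ), 1 ≤ M ∧ ContDiff ℝ 1 χ ∧ (∀ x, χ (rf x) = -χ x) ∧
    (∀ x, |χ x| ≤ M) ∧ (∀ x, ‖fderiv ℝ χ x‖ ≤ M) ∧
      ∀ x : X, 1 < |x 2| → χ x ^ 2 = 1 ∧ fderiv ℝ χ x = 0 := by
  obtain ⟨κ, C, hC, h1, h2, h3, h4, h5, -⟩ := exists_step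
  have hp : ‖(EuclideanSpace.proj 2 : X →L[ℝ] ℝ)‖ ≤ 1 :=
    ContinuousLinearMap.opNorm_le_bound _ zero_le_one fun y => by simpa using rad_coord_le y
  have hd : ∀ x : X, HasFDerivAt (fun y : X => κ (y 2) - κ (-y 2)) _ x := fun x =>
    ((h1.differentiable two_ne_zero _).hasDerivAt.comp_hasFDerivAt x
      (EuclideanSpace.proj (𝕜 := ℝ) (2 : Fin 3)).hasFDerivAt).sub
    ((h1.differentiable two_ne_zero _).hasDerivAt.comp_hasFDerivAt x
      (EuclideanSpace.proj (𝕜 := ℝ) (2 : Fin 3)).hasFDerivAt.neg)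
  have hc : Continuous fun y : X => y 2 := by fun_prop
  have h1' : ContDiff ℝ 1 κ := h1.of_le (by norm_num)
  refine ⟨fun y => κ (y 2) - κ (-y 2), C + C, by linarith, by fun_prop, fun x => by simp [rf_two],
    fun x => abs_le.2 ⟨by linarith [h2 (x 2), h2 (-x 2)], by linarith [h2 (x 2), h2 (-x 2)]⟩,
    fun x => ?_, fun x hx => ?_⟩
  · rw [(hd x).fderiv]
    refine (norm_sub_le _ _).trans (add_le_add ?_ ?_)
    · rw [norm_smul, Real.norm_of_nonneg (h5 _).1]
      exact (mul_le_of_le_one_right (h5 _).1 hp).trans (h5 _).2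
    · rw [norm_smul, Real.norm_of_nonneg (h5 _).1, norm_neg]
      exact (mul_le_of_le_one_right (h5 _).1 hp).trans (h5 _).2
  · rcases lt_abs.1 hx with h | h
    · have : (fun y : X => κ (y 2) - κ (-y 2)) =ᶠ[𝓝 x] fun _ => 1 := by
        filter_upwards [(isOpen_lt continuous_const hc).mem_nhds h] with y hy
        rw [h4 _ hy.le, h3 _ (by linarith [hy.le]), sub_zero]
      exact ⟨by simp only [this.eq_of_nhds, one_pow], by rw [this.fderiv_eq, fderiv_const_apply]⟩
    · have : (fun y : X => κ (y 2) - κ (-y 2)) =ᶠ[𝓝 x] fun _ => -1 := by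
        filter_upwards [(isOpen_lt continuous_const hc.neg).mem_nhds h] with y hy
        rw [h4 (-y 2) hy.le, h3 _ (by linarith [show 1 < -y 2 from hy]), zero_sub]
      exact ⟨by simp only [this.eq_of_nhds, neg_one_sq], by rw [this.fderiv_eq, fderiv_const_apply]⟩

theorem obrest_exp {D t : ℝ} (h : D - 1 ≤ t) (h0 : 0 ≤ t) : Real.exp (-(999 / 1000) * t) ^ 2 ≤
    Real.exp (3 / 2) * Real.exp (-(3 / 2) * D) * Real.exp (-(2 / 5) * t) := by
  rw [← Real.exp_nat_mul, ← Real.exp_add, ← Real.exp_add]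
  exact Real.exp_le_exp.2 (by push_cast; linarith)

theorem eig_del {C : ℝ} (hC : 1 ≤ C) : ∃ C' D0 : ℝ, 1 ≤ C' ∧ ∀ D : ℝ, D0 ≤ D →
    ∀ (E' : ℝ) (g u : X → ℝ) (eg eu : ℝ), Eig D 1 E' g eg → Eig D (-1) E' u eu → (∀ x, 0 ≤ g x) →
    (∀ᵐ x : X, g x ≤
      C * (Real.exp (-(999 / 1000) * tp D x) + Real.exp (-(999 / 1000) * tm D x))) →
    eu - eg ≤ C' * Real.exp (-(3 / 2) * D) := by
  obtain ⟨χ, M, hM, c1, c2, c3, c4, c5⟩ := obrest_step
  obtain ⟨K, hK, hbar⟩ := int_bar (μ := 2 / 5) (by norm_num)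
  have hA : 0 < 2 * C ^ 2 * Real.exp (3 / 2) * (2 * K) := by positivity
  set A := 2 * C ^ 2 * Real.exp (3 / 2) * (2 * K) with hA'
  refine ⟨1 + M ^ 2 * A, 2 * A, le_add_of_nonneg_right (by positivity),
    fun D hD E' g u eg eu hg hu g0 hup => ?_⟩
  obtain ⟨k1, k2, -⟩ := hbar (nuc D)
  obtain ⟨k3, k4, -⟩ := hbar (-nuc D)
  have hE := Real.exp_pos (-(3 / 2) * D)
  set G := fun x => 2 * C ^ 2 * Real.exp (3 / 2) * Real.exp (-(3 / 2) * D) *
    (bar (2 / 5) (nuc D) x + bar (2 / 5) (-nuc D) x) with hG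
  have iG : Integrable G := (k1.add k3).const_mul _
  have G0 : ∀ x, 0 ≤ G x := fun x => by
    have := bar_pos (2 / 5) (nuc D) x
    have := bar_pos (2 / 5) (-nuc D) x
    positivity
  have hτ : ∫ x, G x ≤ A * Real.exp (-(3 / 2) * D) := by
    rw [hG, integral_const_mul, integral_add k1 k3, hA', mul_right_comm _ (2 * K)]
    exact mul_le_mul_of_nonneg_left (by linarith) (by positivity)
  have hτ' : A * Real.exp (-(3 / 2) * D) ≤ 1 / 2 := by
    rw [neg_mul, Real.exp_neg, ← div_eq_mul_inv, div_le_iff₀ (Real.exp_pos _)]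
    linarith [Real.add_one_le_exp (3 / 2 * D)]
  have hgG : ∀ᵐ x : X, |x 2| ≤ 1 → g x ^ 2 ≤ G x := by
    filter_upwards [hup] with x hx hz
    obtain ⟨z1, z2⟩ := abs_le.1 hz
    have a1 := obrest_exp (D := D) (t := tp D x) (by linarith [sub_le_tp D x]) (norm_nonneg _)
    have a2 := obrest_exp (D := D) (t := tm D x) (by linarith [add_le_tm D x]) (norm_nonneg _)
    refine (pow_le_pow_left₀ (g0 x) hx 2).trans ?_
    simp only [hG, bar, ← tm_eq]
    change _ ≤ _ * (Real.exp (-(2 / 5) * tp D x) + _)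
    nlinarith [mul_le_mul_of_nonneg_left (add_le_add a1 a2) (sq_nonneg C), mul_nonneg (sq_nonneg C)
      (sq_nonneg (Real.exp (-(999 / 1000) * tp D x) - Real.exp (-(999 / 1000) * tm D x)))]
  have h1 := hg.h1.mul_contDiff c1 c3 c4
  have h2 : H1 eX fun x => χ x ^ 2 * g x :=
    (h1.mul_contDiff c1 c3 c4).congr (.of_forall fun x => by ring)
  have h3 := hg.h1.dir_mul c1 c3 c4
  have h4 := hg.eq _ h2
  have h5 := hu.gap _ h1 (.of_forall fun x => by rw [c2, hg.par]; ring)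
  have h6 := ip_sq_le hu.h1.1 h1.1
  rw [hu.nrm, one_mul] at h6
  have h7 := mul_nonneg (sub_pos.2 hu.lt).le (sub_nonneg.2 h6)
  have e1 : ip g (fun x => χ x ^ 2 * g x) = ip (fun x => χ x * g x) fun x => χ x * g x :=
    integral_congr_ae (.of_forall fun x => by ring)
  have e2 : ∫ x, V D x * g x * (χ x ^ 2 * g x) = ∫ x, V D x * (χ x * g x) * (χ x * g x) :=
    integral_congr_ae (.of_forall fun x => by ring)
  have l1 : ∫ x, (∑ i, fderiv ℝ χ x (eX i) ^ 2) * g x ^ 2 ≤ ∫ x, M ^ 2 * G x := by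
    refine integral_mono_of_nonneg (.of_forall fun x => by positivity) (iG.const_mul _) ?_
    filter_upwards [hgG] with x hx
    rw [sum_fderiv_sq]
    rcases le_or_gt |x 2| 1 with h | h
    · exact mul_le_mul (pow_le_pow_left₀ (norm_nonneg _) (c4 x) 2) (hx h) (sq_nonneg _) (sq_nonneg _)
    · rw [(c5 x h).2]
      simpa using mul_nonneg (sq_nonneg M) (G0 x)
  have l2 : ∫ x, g x ^ 2 ≤ ∫ x, ((χ x * g x) ^ 2 + G x) := by
    refine integral_mono_ae hg.h1.1.integrable_sq (h1.1.integrable_sq.add iG) ?_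
    filter_upwards [hgG] with x hx
    rcases le_or_gt |x 2| 1 with h | h
    · exact le_add_of_nonneg_of_le (sq_nonneg _) (hx h)
    · rw [mul_pow, (c5 x h).1, one_mul]
      exact le_add_of_nonneg_right (G0 x)
  rw [integral_add h1.1.integrable_sq iG, ← ip_self_eq, ← ip_self_eq, hg.nrm] at l2
  rw [integral_const_mul] at l1
  rw [qf, e1, e2] at h4
  rw [qf, h3] at h5
  have l3 := mul_le_mul_of_nonneg_left hτ (sq_nonneg M)
  generalize ip (fun x => χ x * g x) (fun x => χ x * g x) = N at *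
  have l4 : (eu - eg) * N ≤ M ^ 2 * (A * Real.exp (-(3 / 2) * D)) / 2 := by linarith
  rcases le_total eu eg with h | h
  · exact (sub_nonpos.2 h).trans (by positivity)
  · nlinarith [mul_le_mul_of_nonneg_left (show 1 / 2 ≤ N by linarith) (sub_nonneg.2 h)]

end Crest.Agent.R335
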