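/-
R335/OB/Main: block OB (see R335/Notes)
Skeleton by helper48 (row 335); keep the statements unchanged, add any helper lemmas you like.
-/
import Crest.Agent.R335.Blocks
import Crest.Agent.R335.OB.Bar
import Crest.Agent.R335.OB.Rest

set_option autoImplicit false
set_option linter.unusedSectionVars false
set_option linter.unusedVariables false
set_option linter.unusedSimpArgs false

noncomputable section

namespace Crest.Agent.R335

open MeasureTheory Set Filter Topology Metric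
open scoped ENNReal


theorem stOB : StOB := by
  obtain ⟨c, D1, hc, hc', hE⟩ := exists_eig
  obtain ⟨C1, hC1, H1⟩ := bar_g_up
  obtain ⟨c2, D2, hc2, H2⟩ := bar_g_lo
  obtain ⟨C3, D3, hC3, H3⟩ := bar_u_up
  obtain ⟨c4, D4, hc4, H4⟩ := bar_u_lo
  have i2 := (inv_pos.2 hc2).le
  have i4 := (inv_pos.2 hc4).le
  obtain ⟨C, a1, a2, a3, a4⟩ : ∃ C : ℝ, C1 ≤ C ∧ c2⁻¹ ≤ C ∧ C3 ≤ C ∧ c4⁻¹ ≤ C :=
    ⟨C1 + c2⁻¹ + C3 + c4⁻¹, by linarith, by linarith, by linarith, by linarith⟩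
  have hC : 1 ≤ C := hC1.trans a1
  obtain ⟨C5, hC5, H5⟩ := eig_harn hC
  obtain ⟨C6, D6, hC6, H6⟩ := eig_del hC
  refine ⟨c, C + C5 + C6, max (max (max D1 D2) (max D3 D4)) (max D6 1000), fun D hD => ?_⟩
  simp only [max_le_iff] at hD
  obtain ⟨⟨⟨d1, d2⟩, d3, d4⟩, d6, d0⟩ := hD
  obtain ⟨E', hE'⟩ := hE D d1
  obtain ⟨g', eg, hg', -⟩ := hE' 1 (Or.inl rfl)
  obtain ⟨u', eu, hu', hce⟩ := hE' (-1) (Or.inr rfl)
  obtain ⟨g, hg, g0⟩ := hg'.sign_even
  obtain ⟨u, hu, u0⟩ := hu'.sign_odd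
  have key : ∀ K : ℝ, C ≤ K →
      (∀ᵐ x : X, g x ≤
        K * (Real.exp (-(999 / 1000) * tp D x) + Real.exp (-(999 / 1000) * tm D x))) ∧
      (∀ᵐ x : X,
        K⁻¹ * (Real.exp (-(1001 / 1000) * tp D x) + Real.exp (-(1001 / 1000) * tm D x)) ≤ g x) ∧
      (∀ᵐ x : X, 0 < x 2 → u x ≤
        K * (Real.exp (-(999 / 1000) * tp D x) - Real.exp (-(999 / 1000) * tm D x))) ∧
      ∀ᵐ x : X, 0 < x 2 →
        K⁻¹ * (Real.exp (-(1001 / 1000) * tp D x) - Real.exp (-(1001 / 1000) * tm D x)) ≤ u x := by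
    intro K hK
    have hd : ∀ (μ : ℝ) (x : X), 0 ≤ μ → 0 < x 2 →
        0 ≤ Real.exp (-μ * tp D x) - Real.exp (-μ * tm D x) := fun μ x hμ hx =>
      sub_nonneg.2 (Real.exp_le_exp.2 (by nlinarith [tp_le_tm (D := D) (by linarith) hx]))
    refine ⟨?_, ?_, ?_, ?_⟩
    · filter_upwards [H1 D E' g eg hg] with x hx
      exact hx.trans (mul_le_mul_of_nonneg_right (a1.trans hK) (by positivity))
    · filter_upwards [H2 D d2 E' g eg hg g0] with x hx
      exact (mul_le_mul_of_nonneg_right (inv_le_of_inv_le₀ hc2 (a2.trans hK))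
        (by positivity)).trans hx
    · filter_upwards [H3 D d3 E' u eu hu] with x hx h
      exact (hx h).trans (mul_le_mul_of_nonneg_right (a3.trans hK) (hd _ x (by norm_num) h))
    · filter_upwards [H4 D d4 E' u eu hu u0] with x hx h
      exact (mul_le_mul_of_nonneg_right (inv_le_of_inv_le₀ hc4 (a4.trans hK))
        (hd _ x (by norm_num) h)).trans (hx h)
  obtain ⟨k1, k2, k3, -⟩ := key C le_rfl
  obtain ⟨l1, l2, l3, l4⟩ := key (C + C5 + C6) (by linarith)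
  refine ⟨g, u, eg, eu, hc, hc', by linarith, d0, hg.meas, hu.meas, hg.h1, hu.h1,
    fun x => by rw [hg.par, one_mul], fun x => by rw [hu.par, neg_one_mul], g0, u0, hg.nrm, hu.nrm,
    hg.eq, hu.eq, eig_lt hC hg hu u0 k2 k3, hg.near.trans (by norm_num),
    hu.near.trans (by norm_num), ?_, fun f hf => hg.gap_all hu hce hf, l1, l2, l3, l4, fun x0 => ?_⟩
  · exact (H6 D d6 E' g u eg eu hg hu g0 k1).trans
      (mul_le_mul_of_nonneg_right (by linarith) (Real.exp_pos _).le)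
  · obtain ⟨m, hm, h⟩ := H5 D E' g eg hg k1 k2 x0
    refine ⟨m, hm, ?_⟩
    filter_upwards [h] with x hx hb
    exact ⟨(hx hb).1, (hx hb).2.trans (mul_le_mul_of_nonneg_right (by linarith) hm.le)⟩

end Crest.Agent.R335
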